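import Vale.Agent.P146.Bdl.B2

/-!
Bracket calculus for conditional tilted averages.

`D : Dt Ω X ι`: a hidden probability space `(Ω, Q)`, a finite measure space of configurations
`(X, m)`, an energy `H ω s + ∑ e, B e * S e s` with the row variables `B : ι → ℝ`, an exponent
`0 ≤ x ≤ 1`. For a bounded function `Φ` of `r` replicas the bracket is
`D.br r Φ B = ∫ ω, Z ^ (x - r) * ∫ σ, (∏ i, exp (en (σ i))) * Φ σ`.
Its derivative in `B e` is the bracket of `D.dd r e Φ` (theorem `pd_br`).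
-/

open MeasureTheory ProbabilityTheory Filter Topology

namespace Vale.Agent.P146.H919

open Vale.Agent.P157.Lv

set_option linter.unusedSectionVars false

/-- The data. -/
structure Dt (Ω X ι : Type) [MeasurableSpace Ω] [MeasurableSpace X] where
  Q : Measure Ω
  m : Measure X
  H : Ω → X → ℝ
  S : ι → X → ℝ
  x : ℝ

namespace Dt

variable {Ω X ι : Type} [MeasurableSpace Ω] [MeasurableSpace X] [Fintype ι]

/-- The hypotheses. -/
structure Ok (D : Dt Ω X ι) (h0 : Ω → ℝ) (M0 : ℝ) : Prop where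
  pQ : IsProbabilityMeasure D.Q
  fm : IsFiniteMeasure D.m
  nm : D.m ≠ 0
  Hm : Measurable fun p : Ω × X => D.H p.1 p.2
  h0m : Measurable h0
  Hb : ∀ ω s, |D.H ω s| ≤ h0 ω
  h0i : ∀ c : ℝ, Integrable (fun ω => Real.exp (c * h0 ω)) D.Q
  Sm : ∀ e, Measurable (D.S e)
  Mn : 0 ≤ M0
  Sb : ∀ e s, |D.S e s| ≤ M0
  x0 : 0 ≤ D.x
  x1 : D.x ≤ 1

variable (D : Dt Ω X ι)

/-- The energy. -/
noncomputable def en (B : ι → ℝ) (ω : Ω) (s : X) : ℝ := D.H ω s + ∑ e, B e * D.S e s

/-- The partition function. -/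
noncomputable def Z (B : ι → ℝ) (ω : Ω) : ℝ := ∫ s, Real.exp (D.en B ω s) ∂D.m

/-- The weight of `r` replicas. -/
noncomputable def wt (r : ℕ) (B : ι → ℝ) (ω : Ω) (σ : Fin r → X) : ℝ :=
  D.Z B ω ^ (D.x - r) * ∏ i, Real.exp (D.en B ω (σ i))

/-- The bracket. -/
noncomputable def br (r : ℕ) (Φ : (Fin r → X) → ℝ) (B : ι → ℝ) : ℝ :=
  ∫ ω, ∫ σ, D.wt r B ω σ * Φ σ ∂(Measure.pi fun _ => D.m) ∂D.Q

/-- Forget the last replica. -/
def ini {r : ℕ} (σ : Fin (r + 1) → X) : Fin r → X := fun i => σ i.castSucc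

/-- The kernel of the derivative. -/
def dd (r : ℕ) (e : ι) (Φ : (Fin r → X) → ℝ) (σ : Fin (r + 1) → X) : ℝ :=
  Φ (ini σ) * (∑ i : Fin r, D.S e (σ i.castSucc) + (D.x - r) * D.S e (σ (Fin.last r)))

variable {D} {h0 : Ω → ℝ} {M0 : ℝ}

/-- bounded measurable functions -/
def Bm {Y : Type} [MeasurableSpace Y] (f : Y → ℝ) : Prop := Measurable f ∧ ∃ C, ∀ y, |f y| ≤ C

section bm

variable {Y Y' : Type} [MeasurableSpace Y] [MeasurableSpace Y'] {f g : Y → ℝ}

lemma Bm.const (c : ℝ) : Bm fun _ : Y => c := ⟨measurable_const, |c|, fun _ => le_rfl⟩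

lemma Bm.mul (hf : Bm f) (hg : Bm g) : Bm fun y => f y * g y := by
  obtain ⟨a, C, h⟩ := hf
  obtain ⟨b, C', h'⟩ := hg
  refine ⟨a.mul b, C * C', fun y => ?_⟩
  rw [abs_mul]
  exact mul_le_mul (h y) (h' y) (abs_nonneg _) ((abs_nonneg _).trans (h y))

lemma Bm.add (hf : Bm f) (hg : Bm g) : Bm fun y => f y + g y := by
  obtain ⟨a, C, h⟩ := hf
  obtain ⟨b, C', h'⟩ := hg
  exact ⟨a.add b, C + C', fun y => (abs_add_le _ _).trans (add_le_add (h y) (h' y))⟩

lemma Bm.sum {K : Type} (s : Finset K) {f : K → Y → ℝ} (h : ∀ k ∈ s, Bm (f k)) :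
    Bm fun y => ∑ k ∈ s, f k y := by
  classical
  induction s using Finset.induction_on with
  | empty => simpa using Bm.const (0 : ℝ)
  | insert a s ha ih =>
    simp only [Finset.sum_insert ha]
    exact (h a (Finset.mem_insert_self a s)).add
      (ih fun k hk => h k (Finset.mem_insert_of_mem hk))

lemma Bm.comp (hf : Bm f) {u : Y' → Y} (hu : Measurable u) : Bm fun y => f (u y) := by
  obtain ⟨a, C, h⟩ := hf
  exact ⟨a.comp hu, C, fun y => h _⟩

end bm

lemma ini_meas {r : ℕ} : Measurable (ini : (Fin (r + 1) → X) → Fin r → X) :=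
  measurable_pi_lambda _ fun _ => measurable_pi_apply _

lemma Ok.bmS (h : D.Ok h0 M0) (e : ι) : Bm (D.S e) := ⟨h.Sm e, M0, h.Sb e⟩

lemma Ok.bm_dd (h : D.Ok h0 M0) {r : ℕ} {Φ : (Fin r → X) → ℝ} (hΦ : Bm Φ) (e : ι) :
    Bm (D.dd r e Φ) := by
  unfold dd
  refine (hΦ.comp ini_meas).mul (Bm.add (Bm.sum _ fun i _ => ?_) ((Bm.const _).mul ?_))
  · exact (h.bmS e).comp (measurable_pi_apply _)
  · exact (h.bmS e).comp (measurable_pi_apply _)

/-! ### elementary bounds -/

/-- the bound of the energy -/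
noncomputable def bb (h0 : Ω → ℝ) (M0 : ℝ) (B : ι → ℝ) (ω : Ω) : ℝ := h0 ω + M0 * ∑ e, |B e|

lemma Ok.abs_en (h : D.Ok h0 M0) (B : ι → ℝ) (ω : Ω) (s : X) :
    |D.en B ω s| ≤ bb h0 M0 B ω := by
  unfold en bb
  refine (abs_add_le _ _).trans (add_le_add (h.Hb ω s) ?_)
  refine (Finset.abs_sum_le_sum_abs _ _).trans ?_
  rw [Finset.mul_sum]
  refine Finset.sum_le_sum fun e _ => ?_
  rw [abs_mul, mul_comm]
  exact mul_le_mul_of_nonneg_right (h.Sb e s) (abs_nonneg _)

lemma Ok.bb0 (h : D.Ok h0 M0) (B : ι → ℝ) (ω : Ω) [Nonempty X] : 0 ≤ bb h0 M0 B ω :=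
  (abs_nonneg _).trans (h.abs_en B ω (Classical.arbitrary X))

lemma Ok.neX (h : D.Ok h0 M0) : Nonempty X := by
  by_contra hc
  rw [not_nonempty_iff] at hc
  exact h.nm (Measure.eq_zero_of_isEmpty _)

lemma Ok.en_meas (h : D.Ok h0 M0) :
    Measurable fun p : ((ι → ℝ) × Ω) × X => D.en p.1.1 p.1.2 p.2 := by
  unfold en
  refine (h.Hm.comp ((measurable_snd.comp measurable_fst).prodMk measurable_snd)).add
    (Finset.measurable_sum _ fun e _ => ?_)
  exact ((measurable_pi_apply e).comp (measurable_fst.comp measurable_fst)).mul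
    ((h.Sm e).comp measurable_snd)

lemma Ok.en_meas' (h : D.Ok h0 M0) (B : ι → ℝ) (ω : Ω) : Measurable (D.en B ω) :=
  h.en_meas.comp (measurable_prodMk_left (x := (B, ω)))

lemma Ok.int_exp (h : D.Ok h0 M0) (B : ι → ℝ) (ω : Ω) :
    Integrable (fun s => Real.exp (D.en B ω s)) D.m := by
  have := h.fm
  refine Integrable.of_bound (C := Real.exp (bb h0 M0 B ω))
    (h.en_meas' B ω).exp.aestronglyMeasurable (Eventually.of_forall fun s => ?_)
  rw [Real.norm_eq_abs, abs_of_pos (Real.exp_pos _)]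
  exact Real.exp_le_exp.2 ((le_abs_self _).trans (h.abs_en B ω s))

/-- the total mass of `m` -/
noncomputable def mX (D : Dt Ω X ι) : ℝ := D.m.real Set.univ

lemma Ok.mX0 (h : D.Ok h0 M0) : 0 < D.mX := by
  have := h.fm
  have := h.nm
  unfold mX
  rw [measureReal_def]
  exact ENNReal.toReal_pos (by simpa using h.nm) (measure_ne_top _ _)

lemma Ok.Z_le (h : D.Ok h0 M0) (B : ι → ℝ) (ω : Ω) :
    D.Z B ω ≤ D.mX * Real.exp (bb h0 M0 B ω) := by
  have := h.fm
  have h1 : D.Z B ω ≤ ∫ _, Real.exp (bb h0 M0 B ω) ∂D.m := by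
    refine integral_mono (h.int_exp B ω) (integrable_const _) fun s => ?_
    exact Real.exp_le_exp.2 ((le_abs_self _).trans (h.abs_en B ω s))
  rwa [integral_const, smul_eq_mul] at h1

lemma Ok.le_Z (h : D.Ok h0 M0) (B : ι → ℝ) (ω : Ω) :
    D.mX * Real.exp (-bb h0 M0 B ω) ≤ D.Z B ω := by
  have := h.fm
  have h1 : ∫ _, Real.exp (-bb h0 M0 B ω) ∂D.m ≤ D.Z B ω := by
    refine integral_mono (integrable_const _) (h.int_exp B ω) fun s => ?_
    exact Real.exp_le_exp.2 (by have := (abs_le.1 (h.abs_en B ω s)).1; linarith)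
  rwa [integral_const, smul_eq_mul] at h1

lemma Ok.Z_pos (h : D.Ok h0 M0) (B : ι → ℝ) (ω : Ω) : 0 < D.Z B ω :=
  (mul_pos h.mX0 (Real.exp_pos _)).trans_le (h.le_Z B ω)

lemma Ok.Z_rpow_le (h : D.Ok h0 M0) (p : ℝ) (B : ι → ℝ) (ω : Ω) :
    D.Z B ω ^ p ≤ D.mX ^ p * Real.exp (|p| * bb h0 M0 B ω) := by
  have h1 := h.mX0
  rcases le_total 0 p with hp | hp
  · refine (Real.rpow_le_rpow (h.Z_pos B ω).le (h.Z_le B ω) hp).trans (le_of_eq ?_)
    rw [Real.mul_rpow h1.le (Real.exp_pos _).le, ← Real.exp_mul, abs_of_nonneg hp, mul_comm p]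
  · refine (Real.rpow_le_rpow_of_nonpos (mul_pos h1 (Real.exp_pos _)) (h.le_Z B ω) hp).trans
      (le_of_eq ?_)
    rw [Real.mul_rpow h1.le (Real.exp_pos _).le, ← Real.exp_mul, abs_of_nonpos hp]
    congr 2
    ring

lemma Ok.Z_meas (h : D.Ok h0 M0) : Measurable fun p : (ι → ℝ) × Ω => D.Z p.1 p.2 := by
  have := h.fm
  unfold Z
  exact (StronglyMeasurable.integral_prod_right (ν := D.m)
    (f := fun (p : (ι → ℝ) × Ω) (s : X) => Real.exp (D.en p.1 p.2 s))
    (h.en_meas.exp.stronglyMeasurable)).measurable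

lemma Ok.wt_meas (h : D.Ok h0 M0) (r : ℕ) :
    Measurable fun p : ((ι → ℝ) × Ω) × (Fin r → X) => D.wt r p.1.1 p.1.2 p.2 := by
  unfold wt
  refine ((h.Z_meas.comp measurable_fst).pow_const _).mul (Finset.measurable_prod _ fun i _ => ?_)
  exact (h.en_meas.comp (measurable_fst.prodMk
    ((measurable_pi_apply i).comp measurable_snd))).exp

lemma Ok.wt_nonneg (h : D.Ok h0 M0) (r : ℕ) (B : ι → ℝ) (ω : Ω) (σ : Fin r → X) :
    0 ≤ D.wt r B ω σ :=
  mul_nonneg (Real.rpow_nonneg (h.Z_pos B ω).le _) (Finset.prod_nonneg fun _ _ => (Real.exp_pos _).le)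

lemma Ok.wt_le (h : D.Ok h0 M0) (r : ℕ) (B : ι → ℝ) (ω : Ω) (σ : Fin r → X) :
    D.wt r B ω σ ≤ D.mX ^ (D.x - r) * Real.exp ((|D.x - r| + r) * bb h0 M0 B ω) := by
  have h1 : ∏ i, Real.exp (D.en B ω (σ i)) ≤ Real.exp (r * bb h0 M0 B ω) := by
    refine (Finset.prod_le_prod (fun _ _ => (Real.exp_pos _).le) fun i _ =>
      Real.exp_le_exp.2 ((le_abs_self _).trans (h.abs_en B ω (σ i)))).trans (le_of_eq ?_)
    rw [Finset.prod_const, Finset.card_univ, Fintype.card_fin, ← Real.exp_nat_mul]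
  unfold wt
  refine (mul_le_mul (h.Z_rpow_le (D.x - r) B ω) h1 (Finset.prod_nonneg fun _ _ =>
    (Real.exp_pos _).le) (mul_nonneg (Real.rpow_nonneg h.mX0.le _) (Real.exp_pos _).le)).trans
    (le_of_eq ?_)
  rw [mul_assoc, ← Real.exp_add]
  ring_nf

lemma Ok.int_bb (h : D.Ok h0 M0) (c : ℝ) (B : ι → ℝ) :
    Integrable (fun ω => Real.exp (c * bb h0 M0 B ω)) D.Q := by
  have := (h.h0i c).mul_const (Real.exp (c * (M0 * ∑ e, |B e|)))
  refine this.congr (Eventually.of_forall fun ω => ?_)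
  simp only
  rw [← Real.exp_add]
  unfold bb
  ring_nf

/-- the product measure -/
noncomputable abbrev QX (D : Dt Ω X ι) (r : ℕ) : Measure (Ω × (Fin r → X)) :=
  D.Q.prod (Measure.pi fun _ : Fin r => D.m)

lemma Ok.int_dom (h : D.Ok h0 M0) (r : ℕ) (C c : ℝ) (B : ι → ℝ) :
    Integrable (fun p : Ω × (Fin r → X) => C * Real.exp (c * bb h0 M0 B p.1)) (D.QX r) := by
  have := h.pQ
  have := h.fm
  exact ((h.int_bb c B).const_mul C).comp_fst _

lemma Ok.int_wt (h : D.Ok h0 M0) {r : ℕ} {Φ : (Fin r → X) → ℝ} (hΦ : Bm Φ) (B : ι → ℝ) :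
    Integrable (fun p : Ω × (Fin r → X) => D.wt r B p.1 p.2 * Φ p.2) (D.QX r) := by
  obtain ⟨hm, C, hC⟩ := hΦ
  have hN := h.neX
  have hC0 : 0 ≤ C := (abs_nonneg _).trans (hC fun _ => Classical.arbitrary X)
  refine (h.int_dom r (D.mX ^ (D.x - r) * C) (|D.x - r| + r) B).mono'
    (((h.wt_meas r).comp ((measurable_const.prodMk measurable_fst).prodMk measurable_snd)).mul
      (hm.comp measurable_snd)).aestronglyMeasurable (Eventually.of_forall fun p => ?_)
  rw [Real.norm_eq_abs, abs_mul, abs_of_nonneg (h.wt_nonneg r B p.1 p.2)]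
  refine (mul_le_mul (h.wt_le r B p.1 p.2) (hC p.2) (abs_nonneg _)
    (mul_nonneg (Real.rpow_nonneg h.mX0.le _) (Real.exp_pos _).le)).trans (le_of_eq ?_)
  ring

lemma Ok.br_eq (h : D.Ok h0 M0) {r : ℕ} {Φ : (Fin r → X) → ℝ} (hΦ : Bm Φ) (B : ι → ℝ) :
    D.br r Φ B = ∫ p, D.wt r B p.1 p.2 * Φ p.2 ∂(D.QX r) := by
  have := h.pQ
  have := h.fm
  rw [integral_prod _ (h.int_wt hΦ B)]
  rfl

/-! ### products of replicas -/

lemma prod_rep (D : Dt Ω X ι) (hfm : IsFiniteMeasure D.m) (B : ι → ℝ) (ω : Ω) {r : ℕ}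
    (Ψ : (Fin r → X) → ℝ) (g : X → ℝ) :
    (∫ σ, (∏ i, Real.exp (D.en B ω (σ i))) * Ψ σ ∂(Measure.pi fun _ => D.m)) *
      ∫ s, Real.exp (D.en B ω s) * g s ∂D.m =
    ∫ σ, (∏ i, Real.exp (D.en B ω (σ i))) * (Ψ (ini σ) * g (σ (Fin.last r)))
      ∂(Measure.pi fun _ : Fin (r + 1) => D.m) := by
  have e := measurePreserving_piFinSuccAbove (fun _ : Fin (r + 1) => D.m) (Fin.last r)
  rw [mul_comm, ← integral_prod_mul, ← e.integral_comp (MeasurableEquiv.measurableEmbedding _)]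
  refine integral_congr_ae (Eventually.of_forall fun σ => ?_)
  simp only [MeasurableEquiv.piFinSuccAbove_apply, Fin.prod_univ_castSucc]
  have h1 : (fun i : Fin r => σ ((Fin.last r).succAbove i)) = ini σ := by
    funext i
    rw [Fin.succAbove_last]
    rfl
  have h2 : ((Fin.insertNthEquiv (fun _ : Fin (r + 1) => X) (Fin.last r)).symm σ) =
      (σ (Fin.last r), ini σ) := by
    rw [← h1]
    rfl
  rw [h2]
  simp only [ini]
  ring

/-! ### the derivative -/

variable [DecidableEq ι]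

lemma en_upd (D : Dt Ω X ι) (y : ι → ℝ) (e : ι) (t : ℝ) (ω : Ω) (s : X) :
    D.en (Function.update y e t) ω s = D.en (Function.update y e 0) ω s + t * D.S e s := by
  unfold en
  rw [add_assoc]
  congr 1
  have h1 : ∀ e', Function.update y e t e' * D.S e' s =
      Function.update y e 0 e' * D.S e' s + if e' = e then t * D.S e s else 0 := by
    intro e'
    by_cases he : e' = e
    · subst he
      simp
    · simp [he]
  simp only [h1, Finset.sum_add_distrib, Finset.sum_ite_eq', Finset.mem_univ, if_true]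

lemma hd_en (D : Dt Ω X ι) (y : ι → ℝ) (e : ι) (t : ℝ) (ω : Ω) (s : X) :
    HasDerivAt (fun t => D.en (Function.update y e t) ω s) (D.S e s) t := by
  have h1 : (fun t => D.en (Function.update y e t) ω s) =
      fun t => D.en (Function.update y e 0) ω s + t * D.S e s := funext fun t => D.en_upd y e t ω s
  rw [h1]
  have h2 := ((hasDerivAt_id t).mul_const (D.S e s)).const_add
    (D.en (Function.update y e 0) ω s)
  simpa only [id_eq, one_mul] using h2

lemma sum_upd (y : ι → ℝ) (e : ι) {t t0 : ℝ} (ht : t ∈ Metric.ball t0 1) :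
    ∑ e', |Function.update y e t e'| ≤ ∑ e', |Function.update y e t0 e'| + 1 := by
  rw [Metric.mem_ball, Real.dist_eq] at ht
  have h1 : ∀ e', |Function.update y e t e'| ≤
      |Function.update y e t0 e'| + if e' = e then 1 else 0 := by
    intro e'
    by_cases he : e' = e
    · subst he
      simp only [Function.update_self, if_true]
      have := abs_sub_abs_le_abs_sub t t0
      linarith
    · simp [he]
  refine (Finset.sum_le_sum fun e' _ => h1 e').trans ?_
  rw [Finset.sum_add_distrib, Finset.sum_ite_eq']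
  simp

lemma Ok.bb_upd (h : D.Ok h0 M0) (y : ι → ℝ) (e : ι) {t t0 : ℝ} (ht : t ∈ Metric.ball t0 1)
    (ω : Ω) : bb h0 M0 (Function.update y e t) ω ≤ bb h0 M0 (Function.update y e t0) ω + M0 := by
  unfold bb
  have := mul_le_mul_of_nonneg_left (sum_upd y e ht) h.Mn
  linarith

/-- the derivative of the partition function -/
noncomputable def Ze (D : Dt Ω X ι) (e : ι) (B : ι → ℝ) (ω : Ω) : ℝ :=
  ∫ s, Real.exp (D.en B ω s) * D.S e s ∂D.m

lemma Ok.Ze_le (h : D.Ok h0 M0) (e : ι) (B : ι → ℝ) (ω : Ω) :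
    |D.Ze e B ω| ≤ M0 * D.Z B ω := by
  have hfm := h.fm
  unfold Ze Z
  rw [← integral_const_mul]
  refine (abs_integral_le_integral_abs).trans (integral_mono_of_nonneg
    (Eventually.of_forall fun s => abs_nonneg _) ((h.int_exp B ω).const_mul M0)
    (Eventually.of_forall fun s => ?_))
  simp only
  rw [abs_mul, abs_of_pos (Real.exp_pos _), mul_comm]
  exact mul_le_mul_of_nonneg_right (h.Sb e s) (Real.exp_pos _).le

lemma Ok.Ze_meas (h : D.Ok h0 M0) (e : ι) :
    Measurable fun p : (ι → ℝ) × Ω => D.Ze e p.1 p.2 := by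
  have := h.fm
  unfold Ze
  exact (StronglyMeasurable.integral_prod_right (ν := D.m)
    (f := fun (p : (ι → ℝ) × Ω) (s : X) => Real.exp (D.en p.1 p.2 s) * D.S e s)
    ((h.en_meas.exp.mul ((h.Sm e).comp measurable_snd)).stronglyMeasurable)).measurable

lemma Ok.hd_Z (h : D.Ok h0 M0) (y : ι → ℝ) (e : ι) (t : ℝ) (ω : Ω) :
    HasDerivAt (fun t => D.Z (Function.update y e t) ω) (D.Ze e (Function.update y e t) ω) t := by
  have hfm := h.fm
  have key := hasDerivAt_integral_of_dominated_loc_of_deriv_le (μ := D.m)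
    (F := fun t s => Real.exp (D.en (Function.update y e t) ω s))
    (F' := fun t s => Real.exp (D.en (Function.update y e t) ω s) * D.S e s)
    (x₀ := t) (s := Metric.ball t 1)
    (bound := fun _ => Real.exp (bb h0 M0 (Function.update y e t) ω + M0) * M0)
    (Metric.ball_mem_nhds t one_pos)
    (Eventually.of_forall fun t => (h.int_exp _ ω).aestronglyMeasurable)
    (h.int_exp _ ω) ((h.en_meas' _ ω).exp.mul (h.Sm e)).aestronglyMeasurable
    (Eventually.of_forall fun s u hu => ?_) (integrable_const _)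
    (Eventually.of_forall fun s u _ => (D.hd_en y e u ω s).exp)
  · exact key.2
  · rw [Real.norm_eq_abs, abs_mul, abs_of_pos (Real.exp_pos _)]
    refine mul_le_mul (Real.exp_le_exp.2 ?_) (h.Sb e s) (abs_nonneg _) (Real.exp_pos _).le
    exact ((le_abs_self _).trans (h.abs_en _ ω s)).trans (h.bb_upd y e hu ω)

lemma prod_exp (D : Dt Ω X ι) {r : ℕ} (B : ι → ℝ) (ω : Ω) (σ : Fin r → X) :
    ∏ i, Real.exp (D.en B ω (σ i)) = Real.exp (∑ i, D.en B ω (σ i)) := (Real.exp_sum _ _).symm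

/-- the derivative of the weight -/
noncomputable def dwt (D : Dt Ω X ι) (r : ℕ) (e : ι) (B : ι → ℝ) (ω : Ω) (σ : Fin r → X) : ℝ :=
  D.wt r B ω σ * ∑ i, D.S e (σ i) + (D.x - r) * (D.Z B ω ^ (D.x - (r + 1 : ℕ)) * D.Ze e B ω) *
    ∏ i, Real.exp (D.en B ω (σ i))

lemma Ok.hd_wt (h : D.Ok h0 M0) (r : ℕ) (y : ι → ℝ) (e : ι) (t : ℝ) (ω : Ω) (σ : Fin r → X) :
    HasDerivAt (fun t => D.wt r (Function.update y e t) ω σ)
      (D.dwt r e (Function.update y e t) ω σ) t := by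
  have h1 := (h.hd_Z y e t ω).rpow_const (p := D.x - r) (Or.inl (h.Z_pos _ ω).ne')
  have h2 : HasDerivAt (fun t => ∏ i, Real.exp (D.en (Function.update y e t) ω (σ i)))
      ((∏ i, Real.exp (D.en (Function.update y e t) ω (σ i))) * ∑ i, D.S e (σ i)) t := by
    simp only [prod_exp]
    exact (HasDerivAt.fun_sum fun i _ => D.hd_en y e t ω (σ i)).exp
  refine (h1.mul h2).congr_deriv ?_
  unfold dwt wt
  have e1 : D.x - ((r + 1 : ℕ) : ℝ) = D.x - r - 1 := by push_cast; ring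
  rw [e1]
  ring

lemma Ok.dwt_le (h : D.Ok h0 M0) (r : ℕ) (e : ι) : ∃ K c : ℝ, 0 ≤ K ∧ 0 ≤ c ∧
    ∀ (B : ι → ℝ) (ω : Ω) (σ : Fin r → X), |D.dwt r e B ω σ| ≤
      K * Real.exp (c * bb h0 M0 B ω) := by
  have hN := h.neX
  have hm := h.mX0
  have hM := h.Mn
  refine ⟨D.mX ^ (D.x - r) * (r * M0) + |D.x - r| * D.mX ^ (D.x - (r + 1 : ℕ)) * (M0 * D.mX),
    |D.x - r| + r + (|D.x - (r + 1 : ℕ)| + (r + 1)), by positivity, by positivity,
    fun B ω σ => ?_⟩
  have hb := h.bb0 B ω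
  set b := bb h0 M0 B ω with hbdef
  have h1 : |∑ i, D.S e (σ i)| ≤ r * M0 := by
    refine (Finset.abs_sum_le_sum_abs _ _).trans ((Finset.sum_le_sum fun i _ =>
      h.Sb e (σ i)).trans (le_of_eq ?_))
    simp
  have h2 : ∏ i, Real.exp (D.en B ω (σ i)) ≤ Real.exp (r * b) := by
    refine (Finset.prod_le_prod (fun _ _ => (Real.exp_pos _).le) fun i _ =>
      Real.exp_le_exp.2 ((le_abs_self _).trans (h.abs_en B ω (σ i)))).trans (le_of_eq ?_)
    rw [Finset.prod_const, Finset.card_univ, Fintype.card_fin, ← Real.exp_nat_mul]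
  have h3 : 0 ≤ ∏ i, Real.exp (D.en B ω (σ i)) :=
    Finset.prod_nonneg fun _ _ => (Real.exp_pos _).le
  have h4 : |D.Ze e B ω| ≤ M0 * (D.mX * Real.exp b) :=
    (h.Ze_le e B ω).trans (mul_le_mul_of_nonneg_left (h.Z_le B ω) hM)
  have h5 := h.Z_rpow_le (D.x - (r + 1 : ℕ)) B ω
  have h5' : 0 ≤ D.Z B ω ^ (D.x - (r + 1 : ℕ)) := Real.rpow_nonneg (h.Z_pos B ω).le _
  unfold dwt
  have a1 : |D.wt r B ω σ * ∑ i, D.S e (σ i)| ≤ D.mX ^ (D.x - r) * (r * M0) *
      Real.exp ((|D.x - r| + r) * b) := by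
    rw [abs_mul, abs_of_nonneg (h.wt_nonneg r B ω σ)]
    refine (mul_le_mul (h.wt_le r B ω σ) h1 (abs_nonneg _) (by positivity)).trans (le_of_eq ?_)
    ring
  have a2 : |(D.x - r) * (D.Z B ω ^ (D.x - (r + 1 : ℕ)) * D.Ze e B ω) *
      ∏ i, Real.exp (D.en B ω (σ i))| ≤ |D.x - r| * D.mX ^ (D.x - (r + 1 : ℕ)) * (M0 * D.mX) *
        Real.exp ((|D.x - (r + 1 : ℕ)| + (r + 1)) * b) := by
    rw [abs_mul, abs_mul, abs_mul, abs_of_nonneg h5', abs_of_nonneg h3]
    refine (mul_le_mul (mul_le_mul_of_nonneg_left (mul_le_mul h5 h4 (abs_nonneg _)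
      (by positivity)) (abs_nonneg _)) h2 h3 (by positivity)).trans (le_of_eq ?_)
    have e2 : Real.exp ((|D.x - (r + 1 : ℕ)| + (r + 1)) * b) =
        Real.exp (|D.x - (r + 1 : ℕ)| * b) * Real.exp b * Real.exp (r * b) := by
      rw [← Real.exp_add, ← Real.exp_add]
      ring_nf
    rw [e2]
    ring
  have a3 : Real.exp ((|D.x - r| + r) * b) ≤
      Real.exp ((|D.x - r| + r + (|D.x - (r + 1 : ℕ)| + (r + 1))) * b) := by
    refine Real.exp_le_exp.2 (mul_le_mul_of_nonneg_right ?_ hb)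
    have : 0 ≤ |D.x - (r + 1 : ℕ)| + (r + 1) := by positivity
    linarith
  have a4 : Real.exp ((|D.x - (r + 1 : ℕ)| + (r + 1)) * b) ≤
      Real.exp ((|D.x - r| + r + (|D.x - (r + 1 : ℕ)| + (r + 1))) * b) := by
    refine Real.exp_le_exp.2 (mul_le_mul_of_nonneg_right ?_ hb)
    have : 0 ≤ |D.x - r| + r := by positivity
    linarith
  refine (abs_add_le _ _).trans ((add_le_add a1 a2).trans ?_)
  have a5 := add_le_add
    (mul_le_mul_of_nonneg_left a3 (by positivity : 0 ≤ D.mX ^ (D.x - r) * (r * M0)))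
    (mul_le_mul_of_nonneg_left a4
      (by positivity : 0 ≤ |D.x - r| * D.mX ^ (D.x - (r + 1 : ℕ)) * (M0 * D.mX)))
  rwa [← add_mul] at a5

lemma Ok.dwt_meas (h : D.Ok h0 M0) (r : ℕ) (e : ι) :
    Measurable fun p : ((ι → ℝ) × Ω) × (Fin r → X) => D.dwt r e p.1.1 p.1.2 p.2 := by
  unfold dwt
  refine ((h.wt_meas r).mul (Finset.measurable_sum _ fun i _ => (h.Sm e).comp
    ((measurable_pi_apply i).comp measurable_snd))).add ((measurable_const.mul
      (((h.Z_meas.comp measurable_fst).pow_const _).mul ((h.Ze_meas e).comp measurable_fst))).mul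
        (Finset.measurable_prod _ fun i _ => ?_))
  exact (h.en_meas.comp (measurable_fst.prodMk
    ((measurable_pi_apply i).comp measurable_snd))).exp

/-- **The derivative of a bracket is a bracket.** -/
theorem Ok.pd_br (h : D.Ok h0 M0) {r : ℕ} {Φ : (Fin r → X) → ℝ} (hΦ : Bm Φ) (e : ι) :
    PD e (D.br r Φ) (D.br (r + 1) (D.dd r e Φ)) := by
  intro y t
  have hQ := h.pQ
  have hfm := h.fm
  have hN := h.neX
  obtain ⟨K, c, hK, hc, hKc⟩ := h.dwt_le r e
  obtain ⟨hm, C, hC⟩ := id hΦ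
  have hC0 : 0 ≤ C := (abs_nonneg _).trans (hC fun _ => Classical.arbitrary X)
  have hmw : ∀ u, Measurable fun p : Ω × (Fin r → X) =>
      D.dwt r e (Function.update y e u) p.1 p.2 * Φ p.2 := fun u =>
    ((h.dwt_meas r e).comp ((measurable_const.prodMk measurable_fst).prodMk
      measurable_snd)).mul (hm.comp measurable_snd)
  have key := hasDerivAt_integral_of_dominated_loc_of_deriv_le (μ := D.QX r)
    (F := fun t p => D.wt r (Function.update y e t) p.1 p.2 * Φ p.2)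
    (F' := fun t p => D.dwt r e (Function.update y e t) p.1 p.2 * Φ p.2)
    (x₀ := t) (s := Metric.ball t 1)
    (bound := fun p => K * Real.exp (c * M0) * C *
      Real.exp (c * bb h0 M0 (Function.update y e t) p.1))
    (Metric.ball_mem_nhds t one_pos)
    (Eventually.of_forall fun t => (h.int_wt hΦ _).aestronglyMeasurable)
    (h.int_wt hΦ _) (hmw t).aestronglyMeasurable
    (Eventually.of_forall fun p u hu => ?_) (h.int_dom r _ _ _)
    (Eventually.of_forall fun p u _ => (h.hd_wt r y e u p.1 p.2).mul_const _)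
  · have h1 := key.2
    have h2 : (fun t => ∫ p, D.wt r (Function.update y e t) p.1 p.2 * Φ p.2 ∂(D.QX r)) =
        fun t => D.br r Φ (Function.update y e t) := by
      funext t
      rw [h.br_eq hΦ]
    rw [h2] at h1
    refine h1.congr_deriv ?_
    rw [integral_prod _ key.1]
    unfold br
    refine integral_congr_ae (Eventually.of_forall fun ω => ?_)
    simp only
    set B := Function.update y e t with hB
    have i0 : ∀ {Ψ : (Fin r → X) → ℝ}, Bm Ψ → Integrable (fun σ : Fin r → X =>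
        (∏ i, Real.exp (D.en B ω (σ i))) * Ψ σ) (Measure.pi fun _ => D.m) := by
      intro Ψ hΨ
      obtain ⟨hm', C', hC'⟩ := hΨ
      refine Integrable.of_bound (C := Real.exp (r * bb h0 M0 B ω) * C')
        ((Finset.measurable_prod _ fun i _ =>
          ((h.en_meas' B ω).comp (measurable_pi_apply i)).exp).mul hm').aestronglyMeasurable
        (Eventually.of_forall fun σ => ?_)
      rw [Real.norm_eq_abs, abs_mul, abs_of_nonneg (Finset.prod_nonneg fun _ _ =>
        (Real.exp_pos _).le)]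
      refine mul_le_mul ?_ (hC' σ) (abs_nonneg _) (Real.exp_pos _).le
      refine (Finset.prod_le_prod (fun _ _ => (Real.exp_pos _).le) fun i _ =>
        Real.exp_le_exp.2 ((le_abs_self _).trans (h.abs_en B ω (σ i)))).trans (le_of_eq ?_)
      rw [Finset.prod_const, Finset.card_univ, Fintype.card_fin, ← Real.exp_nat_mul]
    have hS : Bm fun σ : Fin r → X => Φ σ * ∑ i, D.S e (σ i) :=
      hΦ.mul (Bm.sum _ fun i _ => (h.bmS e).comp (measurable_pi_apply i))
    have e1 : ∀ σ : Fin r → X, D.dwt r e B ω σ * Φ σ =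
        D.Z B ω ^ (D.x - r) * ((∏ i, Real.exp (D.en B ω (σ i))) * (Φ σ * ∑ i, D.S e (σ i))) +
        (D.x - r) * (D.Z B ω ^ (D.x - (r + 1 : ℕ)) * D.Ze e B ω) *
          ((∏ i, Real.exp (D.en B ω (σ i))) * Φ σ) := by
      intro σ
      unfold dwt wt
      ring
    simp only [e1]
    rw [integral_add ((i0 hS).const_mul _) ((i0 hΦ).const_mul _), integral_const_mul,
      integral_const_mul]
    have e2 : D.Z B ω ^ (D.x - r) = D.Z B ω ^ (D.x - (r + 1 : ℕ)) * D.Z B ω := by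
      rw [← Real.rpow_add_one (h.Z_pos B ω).ne']
      congr 1
      push_cast
      ring
    have e3 := prod_rep D hfm B ω (fun σ : Fin r → X => Φ σ * ∑ i, D.S e (σ i)) (fun _ => 1)
    have e4 := prod_rep D hfm B ω Φ (D.S e)
    have e5 : ∫ s, Real.exp (D.en B ω s) * (1 : ℝ) ∂D.m = D.Z B ω := by
      simp only [mul_one]
      rfl
    rw [e5] at e3
    have e6 : D.Ze e B ω = ∫ s, Real.exp (D.en B ω s) * D.S e s ∂D.m := rfl
    rw [← e6] at e4
    have e7 : ∀ σ : Fin (r + 1) → X, D.wt (r + 1) B ω σ * D.dd r e Φ σ =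
        D.Z B ω ^ (D.x - (r + 1 : ℕ)) * ((∏ i, Real.exp (D.en B ω (σ i))) *
          ((fun σ : Fin r → X => Φ σ * ∑ i, D.S e (σ i)) (ini σ) *
            (fun _ => (1 : ℝ)) (σ (Fin.last r)))) +
        D.Z B ω ^ (D.x - (r + 1 : ℕ)) * (D.x - r) * ((∏ i, Real.exp (D.en B ω (σ i))) *
          (Φ (ini σ) * D.S e (σ (Fin.last r)))) := by
      intro σ
      unfold wt dd ini
      ring
    have j0 : ∀ {Ψ : (Fin (r + 1) → X) → ℝ}, Bm Ψ → Integrable (fun σ : Fin (r + 1) → X =>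
        (∏ i, Real.exp (D.en B ω (σ i))) * Ψ σ) (Measure.pi fun _ => D.m) := by
      intro Ψ hΨ
      obtain ⟨hm', C', hC'⟩ := hΨ
      refine Integrable.of_bound (C := Real.exp ((r + 1 : ℕ) * bb h0 M0 B ω) * C')
        ((Finset.measurable_prod _ fun i _ =>
          ((h.en_meas' B ω).comp (measurable_pi_apply i)).exp).mul hm').aestronglyMeasurable
        (Eventually.of_forall fun σ => ?_)
      rw [Real.norm_eq_abs, abs_mul, abs_of_nonneg (Finset.prod_nonneg fun _ _ =>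
        (Real.exp_pos _).le)]
      refine mul_le_mul ?_ (hC' σ) (abs_nonneg _) (Real.exp_pos _).le
      refine (Finset.prod_le_prod (fun _ _ => (Real.exp_pos _).le) fun i _ =>
        Real.exp_le_exp.2 ((le_abs_self _).trans (h.abs_en B ω (σ i)))).trans (le_of_eq ?_)
      rw [Finset.prod_const, Finset.card_univ, Fintype.card_fin, ← Real.exp_nat_mul]
    simp only [e7]
    rw [integral_add ((j0 ((hS.comp ini_meas).mul (Bm.const 1))).const_mul _)
      ((j0 ((hΦ.comp ini_meas).mul ((h.bmS e).comp (measurable_pi_apply _)))).const_mul _),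
      integral_const_mul, integral_const_mul, ← e3, ← e4, e2]
    ring
  · rw [Real.norm_eq_abs, abs_mul]
    refine (mul_le_mul ((hKc _ _ _).trans (mul_le_mul_of_nonneg_left (Real.exp_le_exp.2
      (mul_le_mul_of_nonneg_left (h.bb_upd y e hu p.1) hc)) hK)) (hC p.2) (abs_nonneg _)
      (by positivity)).trans (le_of_eq ?_)
    rw [mul_add, Real.exp_add]
    ring

end Dt

end Vale.Agent.P146.H919
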