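import Mathlib

/-!
Sums of squares of averages as averages over two independent copies.

`P` is a probability measure on `Y`, `F G H : ι → Y → ℝ` are bounded vector functions. Then
`∑ e f g, (∫ Φ F_e G_f H_g dP)^2 = ∫∫ Φ Φ' ⟨F, F'⟩ ⟨G, G'⟩ ⟨H, H'⟩`, which is bounded by the second
moment of `⟨F, F'⟩` and the fourth moments of `⟨G, G'⟩` and `⟨H, H'⟩`.
-/

open MeasureTheory ProbabilityTheory Filter Topology

namespace Vale.Agent.P146.H919

namespace Form

set_option linter.unusedSectionVars false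

/-- bounded measurable functions -/
def Bd {Y : Type} [MeasurableSpace Y] (f : Y → ℝ) : Prop := Measurable f ∧ ∃ C, ∀ y, |f y| ≤ C

section bm

variable {Y Y' : Type} [MeasurableSpace Y] [MeasurableSpace Y'] {f g : Y → ℝ}

lemma Bd.const (c : ℝ) : Bd fun _ : Y => c := ⟨measurable_const, |c|, fun _ => le_rfl⟩

lemma Bd.mul (hf : Bd f) (hg : Bd g) : Bd fun y => f y * g y := by
  obtain ⟨a, C, h⟩ := hf
  obtain ⟨b, C', h'⟩ := hg
  refine ⟨a.mul b, C * C', fun y => ?_⟩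
  rw [abs_mul]
  exact mul_le_mul (h y) (h' y) (abs_nonneg _) ((abs_nonneg _).trans (h y))

lemma Bd.add (hf : Bd f) (hg : Bd g) : Bd fun y => f y + g y := by
  obtain ⟨a, C, h⟩ := hf
  obtain ⟨b, C', h'⟩ := hg
  exact ⟨a.add b, C + C', fun y => (abs_add_le _ _).trans (add_le_add (h y) (h' y))⟩

lemma Bd.abs (hf : Bd f) : Bd fun y => |f y| := by
  obtain ⟨a, C, h⟩ := hf
  exact ⟨a.abs, C, fun y => by rw [abs_abs]; exact h y⟩

lemma Bd.pow (hf : Bd f) (n : ℕ) : Bd fun y => f y ^ n := by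
  obtain ⟨a, C, h⟩ := hf
  refine ⟨a.pow_const n, C ^ n, fun y => ?_⟩
  rw [abs_pow]
  exact pow_le_pow_left₀ (abs_nonneg _) (h y) n

lemma Bd.sum {K : Type} (s : Finset K) {f : K → Y → ℝ} (h : ∀ k ∈ s, Bd (f k)) :
    Bd fun y => ∑ k ∈ s, f k y := by
  classical
  induction s using Finset.induction_on with
  | empty => simpa using Bd.const (0 : ℝ)
  | insert a s ha ih =>
    simp only [Finset.sum_insert ha]
    exact (h a (Finset.mem_insert_self a s)).add
      (ih fun k hk => h k (Finset.mem_insert_of_mem hk))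

lemma Bd.comp (hf : Bd f) {u : Y' → Y} (hu : Measurable u) : Bd fun y => f (u y) := by
  obtain ⟨a, C, h⟩ := hf
  exact ⟨a.comp hu, C, fun y => h _⟩

lemma Bd.integrable (hf : Bd f) (P : Measure Y) [IsFiniteMeasure P] : Integrable f P := by
  obtain ⟨a, C, h⟩ := hf
  exact Integrable.of_bound (C := C) a.aestronglyMeasurable (Eventually.of_forall fun y => h y)

end bm

variable {Y X : Type} [MeasurableSpace Y] [MeasurableSpace X] {P : Measure Y}
  [IsProbabilityMeasure P] {ι : Type} [Fintype ι]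

/-- the average over two independent copies -/
noncomputable def two (P : Measure Y) (F : Y × Y → ℝ) : ℝ := ∫ p, F p ∂(P.prod P)

/-- the overlap of a vector function -/
def ov (F : ι → Y → ℝ) (p : Y × Y) : ℝ := ∑ e, F e p.1 * F e p.2

lemma bd_ov {F : ι → Y → ℝ} (hF : ∀ e, Bd (F e)) : Bd (ov F) :=
  Bd.sum _ fun e _ => ((hF e).comp measurable_fst).mul ((hF e).comp measurable_snd)

lemma two_mono {F G : Y × Y → ℝ} (hF : Bd F) (hG : Bd G) (h : ∀ p, F p ≤ G p) :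
    two P F ≤ two P G := integral_mono (hF.integrable _) (hG.integrable _) h

lemma two_nonneg {F : Y × Y → ℝ} (h : ∀ p, 0 ≤ F p) : 0 ≤ two P F := integral_nonneg h

/-- The sum of the squares of averages. -/
lemma sum_sq {κ : Type} [Fintype κ] {f : κ → Y → ℝ} (hf : ∀ k, Bd (f k)) :
    ∑ k, (∫ y, f k y ∂P) ^ 2 = two P fun p => ∑ k, f k p.1 * f k p.2 := by
  unfold two
  rw [integral_finsetSum _ fun k _ =>
    (((hf k).comp measurable_fst).mul ((hf k).comp measurable_snd)).integrable _]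
  refine Finset.sum_congr rfl fun k _ => ?_
  rw [integral_prod_mul, sq]

/-- Cauchy and Schwarz for bounded functions. -/
lemma cs {Q : Measure X} [IsFiniteMeasure Q] {f g : X → ℝ} (hf : Bd f) (hg : Bd g) :
    (∫ x, f x * g x ∂Q) ^ 2 ≤ (∫ x, f x ^ 2 ∂Q) * ∫ x, g x ^ 2 ∂Q := by
  have h1 : ∀ t : ℝ, 0 ≤ (∫ x, g x ^ 2 ∂Q) * (t * t) + (-2 * ∫ x, f x * g x ∂Q) * t +
      ∫ x, f x ^ 2 ∂Q := by
    intro t
    have i1 := (hf.pow 2).integrable Q
    have i2 := (hg.pow 2).integrable Q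
    have i3 := (hf.mul hg).integrable Q
    have h2 : (∫ x, g x ^ 2 ∂Q) * (t * t) + (-2 * ∫ x, f x * g x ∂Q) * t +
        ∫ x, f x ^ 2 ∂Q = ∫ x, (f x - t * g x) ^ 2 ∂Q := by
      have h3 : ∀ x, (f x - t * g x) ^ 2 = f x ^ 2 - 2 * t * (f x * g x) + t ^ 2 * g x ^ 2 :=
        fun x => by ring
      have i4 : Integrable (fun x => 2 * t * (f x * g x)) Q := i3.const_mul _
      have i5 : Integrable (fun x => t ^ 2 * g x ^ 2) Q := i2.const_mul _
      have i6 : Integrable (fun x => f x ^ 2 - 2 * t * (f x * g x)) Q := i1.sub i4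
      simp only [h3]
      rw [integral_add i6 i5, integral_sub i1 i4, integral_const_mul, integral_const_mul]
      ring
    rw [h2]
    exact integral_nonneg fun x => sq_nonneg _
  have h4 := discrim_le_zero h1
  unfold discrim at h4
  nlinarith

/-- `(∑ w x)^2 ≤ (∑ w) ∑ w x^2` -/
lemma wcs {κ : Type} (s : Finset κ) (w x : κ → ℝ) (hw : ∀ k ∈ s, 0 ≤ w k) :
    (∑ k ∈ s, w k * x k) ^ 2 ≤ (∑ k ∈ s, w k) * ∑ k ∈ s, w k * x k ^ 2 := by
  have h1 := Finset.sum_mul_sq_le_sq_mul_sq s (fun k => √(w k)) (fun k => √(w k) * x k)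
  have h2 : ∀ k ∈ s, √(w k) * (√(w k) * x k) = w k * x k := fun k hk => by
    rw [← mul_assoc, Real.mul_self_sqrt (hw k hk)]
  have h3 : ∀ k ∈ s, √(w k) ^ 2 = w k := fun k hk => Real.sq_sqrt (hw k hk)
  have h4 : ∀ k ∈ s, (√(w k) * x k) ^ 2 = w k * x k ^ 2 := fun k hk => by
    rw [mul_pow, Real.sq_sqrt (hw k hk)]
  rwa [Finset.sum_congr rfl h2, Finset.sum_congr rfl h3, Finset.sum_congr rfl h4] at h1

/-- second moment of the overlap -/
noncomputable def k2 (P : Measure Y) (F : ι → Y → ℝ) : ℝ := two P fun p => ov F p ^ 2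

/-- fourth moment of the overlap -/
noncomputable def k4 (P : Measure Y) (F : ι → Y → ℝ) : ℝ := two P fun p => ov F p ^ 4

lemma k2_nonneg (F : ι → Y → ℝ) : 0 ≤ k2 P F := two_nonneg fun _ => sq_nonneg _

lemma k4_nonneg (F : ι → Y → ℝ) : 0 ≤ k4 P F := two_nonneg fun _ => by positivity

lemma k2_eq {F : ι → Y → ℝ} (hF : ∀ e, Bd (F e)) :
    k2 P F = ∑ e : ι × ι, (∫ y, F e.1 y * F e.2 y ∂P) ^ 2 := by
  rw [sum_sq (f := fun (e : ι × ι) y => F e.1 y * F e.2 y) fun e => (hF e.1).mul (hF e.2)]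
  unfold k2 two
  refine integral_congr_ae (Eventually.of_forall fun p => ?_)
  simp only [ov, sq, Finset.sum_mul_sum, Fintype.sum_prod_type]
  exact Finset.sum_congr rfl fun e _ => Finset.sum_congr rfl fun f _ => by ring

lemma k4_eq {F : ι → Y → ℝ} (hF : ∀ e, Bd (F e)) :
    k4 P F = ∑ e : (ι × ι) × (ι × ι),
      (∫ y, (F e.1.1 y * F e.1.2 y) * (F e.2.1 y * F e.2.2 y) ∂P) ^ 2 := by
  rw [sum_sq (f := fun (e : (ι × ι) × (ι × ι)) y =>
    (F e.1.1 y * F e.1.2 y) * (F e.2.1 y * F e.2.2 y)) fun e =>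
      ((hF e.1.1).mul (hF e.1.2)).mul ((hF e.2.1).mul (hF e.2.2))]
  unfold k4 two
  refine integral_congr_ae (Eventually.of_forall fun p => ?_)
  have h1 : ov F p ^ 4 = (ov F p * ov F p) * (ov F p * ov F p) := by ring
  simp only [h1]
  have h2 : ov F p * ov F p = ∑ e : ι × ι, (F e.1 p.1 * F e.2 p.1) * (F e.1 p.2 * F e.2 p.2) := by
    simp only [ov, Finset.sum_mul_sum, Fintype.sum_prod_type]
    exact Finset.sum_congr rfl fun e _ => Finset.sum_congr rfl fun f _ => by ring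
  have h3 : ∀ G : ι × ι → ℝ, (∑ e, G e) * ∑ e, G e =
      ∑ e : (ι × ι) × (ι × ι), G e.1 * G e.2 := fun G => by
    rw [Finset.sum_mul_sum]
    exact (Fintype.sum_prod_type (f := fun e : (ι × ι) × (ι × ι) => G e.1 * G e.2)).symm
  rw [h2, h3]
  exact Finset.sum_congr rfl fun e _ => by ring

lemma k2_sq_le {F : ι → Y → ℝ} (hF : ∀ e, Bd (F e)) : k2 P F ^ 2 ≤ k4 P F := by
  have h1 := cs (Q := P.prod P) ((bd_ov hF).pow 2) (Bd.const 1)
  have h2 : ∫ _ : Y × Y, (1 : ℝ) ^ 2 ∂(P.prod P) = 1 := by simp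
  rw [h2, mul_one] at h1
  have h3 : ∀ p, (ov F p ^ 2) ^ 2 = ov F p ^ 4 := fun p => by ring
  simp only [mul_one, h3] at h1
  exact h1

/-- One vector. -/
theorem mix1 {Φ : Y → ℝ} {C0 : ℝ} (hΦ : Bd Φ) (hC : ∀ y, |Φ y| ≤ C0) {F : ι → Y → ℝ}
    (hF : ∀ e, Bd (F e)) :
    ∑ e, (∫ y, Φ y * F e y ∂P) ^ 2 ≤ C0 ^ 2 * √(k2 P F) := by
  have hC0 : 0 ≤ C0 := by
    have : Nonempty Y := by
      by_contra hc
      rw [not_nonempty_iff] at hc
      exact (IsProbabilityMeasure.ne_zero P) (Measure.eq_zero_of_isEmpty _)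
    exact (abs_nonneg _).trans (hC (Classical.arbitrary Y))
  rw [sum_sq fun e => hΦ.mul (hF e)]
  have h1 : two P (fun p => ∑ e, Φ p.1 * F e p.1 * (Φ p.2 * F e p.2)) ≤
      two P fun p => C0 ^ 2 * |ov F p| := by
    refine two_mono (Bd.sum _ fun e _ => ((hΦ.mul (hF e)).comp measurable_fst).mul
      ((hΦ.mul (hF e)).comp measurable_snd)) ((Bd.const _).mul (bd_ov hF).abs) fun p => ?_
    have e1 : ∑ e, Φ p.1 * F e p.1 * (Φ p.2 * F e p.2) = Φ p.1 * Φ p.2 * ov F p := by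
      unfold ov
      rw [Finset.mul_sum]
      exact Finset.sum_congr rfl fun e _ => by ring
    rw [e1]
    refine (le_abs_self _).trans ?_
    rw [abs_mul, abs_mul, sq]
    exact mul_le_mul_of_nonneg_right (mul_le_mul (hC _) (hC _) (abs_nonneg _) hC0) (abs_nonneg _)
  refine h1.trans ?_
  unfold two
  rw [integral_const_mul]
  refine mul_le_mul_of_nonneg_left ?_ (sq_nonneg _)
  refine Real.le_sqrt_of_sq_le ?_
  have h2 := cs (Q := P.prod P) (bd_ov hF).abs (Bd.const 1)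
  have h3 : ∫ _ : Y × Y, (1 : ℝ) ^ 2 ∂(P.prod P) = 1 := by simp
  rw [h3, mul_one] at h2
  simp only [mul_one, sq_abs] at h2
  exact h2

/-- Two vectors. -/
theorem mix2 {Φ : Y → ℝ} {C0 : ℝ} (hΦ : Bd Φ) (hC : ∀ y, |Φ y| ≤ C0) {F G : ι → Y → ℝ}
    (hF : ∀ e, Bd (F e)) (hG : ∀ e, Bd (G e)) :
    ∑ e : ι × ι, (∫ y, Φ y * F e.1 y * G e.2 y ∂P) ^ 2 ≤ C0 ^ 2 * √(k2 P F * k2 P G) := by
  have hC0 : 0 ≤ C0 := by
    have : Nonempty Y := by
      by_contra hc
      rw [not_nonempty_iff] at hc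
      exact (IsProbabilityMeasure.ne_zero P) (Measure.eq_zero_of_isEmpty _)
    exact (abs_nonneg _).trans (hC (Classical.arbitrary Y))
  have hb : ∀ e : ι × ι, Bd fun y => Φ y * F e.1 y * G e.2 y := fun e =>
    (hΦ.mul (hF e.1)).mul (hG e.2)
  rw [sum_sq hb]
  have h1 : two P (fun p => ∑ e : ι × ι, Φ p.1 * F e.1 p.1 * G e.2 p.1 *
      (Φ p.2 * F e.1 p.2 * G e.2 p.2)) ≤
      two P fun p => C0 ^ 2 * (|ov F p| * |ov G p|) := by
    refine two_mono (Bd.sum _ fun e _ => ((hb e).comp measurable_fst).mul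
      ((hb e).comp measurable_snd)) ((Bd.const _).mul ((bd_ov hF).abs.mul (bd_ov hG).abs))
      fun p => ?_
    have e1 : ∑ e : ι × ι, Φ p.1 * F e.1 p.1 * G e.2 p.1 *
        (Φ p.2 * F e.1 p.2 * G e.2 p.2) = Φ p.1 * Φ p.2 * (ov F p * ov G p) := by
      unfold ov
      rw [Finset.sum_mul_sum, Finset.mul_sum, Fintype.sum_prod_type]
      refine Finset.sum_congr rfl fun e _ => ?_
      rw [Finset.mul_sum]
      exact Finset.sum_congr rfl fun f _ => by ring
    rw [e1]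
    refine (le_abs_self _).trans ?_
    rw [abs_mul, abs_mul, abs_mul, sq]
    exact mul_le_mul_of_nonneg_right (mul_le_mul (hC _) (hC _) (abs_nonneg _) hC0) (by positivity)
  refine h1.trans ?_
  unfold two
  rw [integral_const_mul]
  refine mul_le_mul_of_nonneg_left ?_ (sq_nonneg _)
  refine Real.le_sqrt_of_sq_le ?_
  have h2 := cs (Q := P.prod P) (bd_ov hF).abs (bd_ov hG).abs
  simp only [sq_abs] at h2
  exact h2

/-- Three vectors. -/
theorem mix3 {Φ : Y → ℝ} {C0 : ℝ} (hΦ : Bd Φ) (hC : ∀ y, |Φ y| ≤ C0) {F G H : ι → Y → ℝ}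
    (hF : ∀ e, Bd (F e)) (hG : ∀ e, Bd (G e)) (hH : ∀ e, Bd (H e)) :
    ∑ e : (ι × ι) × ι, (∫ y, Φ y * F e.1.1 y * G e.1.2 y * H e.2 y ∂P) ^ 2 ≤
      C0 ^ 2 * √(k2 P F * √(k4 P G * k4 P H)) := by
  have hC0 : 0 ≤ C0 := by
    have : Nonempty Y := by
      by_contra hc
      rw [not_nonempty_iff] at hc
      exact (IsProbabilityMeasure.ne_zero P) (Measure.eq_zero_of_isEmpty _)
    exact (abs_nonneg _).trans (hC (Classical.arbitrary Y))
  have hb : ∀ e : (ι × ι) × ι, Bd fun y => Φ y * F e.1.1 y * G e.1.2 y * H e.2 y := fun e =>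
    ((hΦ.mul (hF e.1.1)).mul (hG e.1.2)).mul (hH e.2)
  rw [sum_sq hb]
  have h1 : two P (fun p => ∑ e : (ι × ι) × ι, Φ p.1 * F e.1.1 p.1 * G e.1.2 p.1 * H e.2 p.1 *
      (Φ p.2 * F e.1.1 p.2 * G e.1.2 p.2 * H e.2 p.2)) ≤
      two P fun p => C0 ^ 2 * (|ov F p| * (|ov G p| * |ov H p|)) := by
    refine two_mono (Bd.sum _ fun e _ => ((hb e).comp measurable_fst).mul
      ((hb e).comp measurable_snd)) ((Bd.const _).mul ((bd_ov hF).abs.mul
        ((bd_ov hG).abs.mul (bd_ov hH).abs))) fun p => ?_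
    have e1 : ∑ e : (ι × ι) × ι, Φ p.1 * F e.1.1 p.1 * G e.1.2 p.1 * H e.2 p.1 *
        (Φ p.2 * F e.1.1 p.2 * G e.1.2 p.2 * H e.2 p.2) =
        Φ p.1 * Φ p.2 * (ov F p * (ov G p * ov H p)) := by
      have e2 : ov F p * (ov G p * ov H p) = (∑ e : ι × ι, (F e.1 p.1 * F e.1 p.2) *
          (G e.2 p.1 * G e.2 p.2)) * ov H p := by
        rw [← mul_assoc]
        congr 1
        unfold ov
        rw [Finset.sum_mul_sum, Fintype.sum_prod_type]
      rw [e2]
      unfold ov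
      rw [Finset.sum_mul_sum, Finset.mul_sum, Fintype.sum_prod_type]
      refine Finset.sum_congr rfl fun e _ => ?_
      rw [Finset.mul_sum]
      exact Finset.sum_congr rfl fun f _ => by ring
    rw [e1]
    refine (le_abs_self _).trans ?_
    rw [abs_mul, abs_mul, abs_mul, abs_mul, sq]
    exact mul_le_mul_of_nonneg_right (mul_le_mul (hC _) (hC _) (abs_nonneg _) hC0) (by positivity)
  refine h1.trans ?_
  unfold two
  rw [integral_const_mul]
  refine mul_le_mul_of_nonneg_left ?_ (sq_nonneg _)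
  refine Real.le_sqrt_of_sq_le ?_
  have h2 := cs (Q := P.prod P) (bd_ov hF).abs ((bd_ov hG).abs.mul (bd_ov hH).abs)
  simp only [sq_abs, mul_pow] at h2
  refine h2.trans (mul_le_mul_of_nonneg_left ?_ (k2_nonneg F))
  refine Real.le_sqrt_of_sq_le ?_
  have h3 := cs (Q := P.prod P) ((bd_ov hG).pow 2) ((bd_ov hH).pow 2)
  have h4 : ∀ (G : ι → Y → ℝ) p, (ov G p ^ 2) ^ 2 = ov G p ^ 4 := fun G p => by ring
  simp only [h4] at h3
  exact h3

/-! ### linear forms of replicas with the same law -/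

variable {T : Type} [Fintype T] {ρ : Measure X} {S : ι → X → ℝ} {π : T → Y → X}

/-- a linear form of the replicas -/
def lf (S : ι → X → ℝ) (π : T → Y → X) (a : T → ℝ) (e : ι) (y : Y) : ℝ := ∑ t, a t * S e (π t y)

lemma bd_lf (hS : ∀ e, Bd (S e)) (hπ : ∀ t, Measurable (π t)) (a : T → ℝ) (e : ι) :
    Bd (lf S π a e) := Bd.sum _ fun t _ => (Bd.const _).mul ((hS e).comp (hπ t))

lemma ov_lf (a : T → ℝ) (p : Y × Y) :
    ov (lf S π a) p = ∑ q : T × T, (a q.1 * a q.2) * ov S (π q.1 p.1, π q.2 p.2) := by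
  unfold ov lf
  simp only [Finset.sum_mul_sum, Fintype.sum_prod_type]
  rw [Finset.sum_comm]
  refine Finset.sum_congr rfl fun t _ => ?_
  rw [Finset.sum_comm]
  refine Finset.sum_congr rfl fun t' _ => ?_
  rw [Finset.mul_sum]
  exact Finset.sum_congr rfl fun e _ => by ring

lemma two_map [IsProbabilityMeasure ρ] (hπ : ∀ t, Measurable (π t)) (hρ : ∀ t, P.map (π t) = ρ)
    (t t' : T) {F : X × X → ℝ} (hF : Measurable F) :
    two P (fun p => F (π t p.1, π t' p.2)) = two ρ F := by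
  unfold two
  have h1 : (P.prod P).map (Prod.map (π t) (π t')) = ρ.prod ρ := by
    rw [← Measure.map_prod_map P P (hπ t) (hπ t'), hρ, hρ]
  rw [← h1, integral_map ((hπ t).prodMap (hπ t')).aemeasurable hF.aestronglyMeasurable]
  rfl

lemma k2_lf [IsProbabilityMeasure ρ] (hS : ∀ e, Bd (S e)) (hπ : ∀ t, Measurable (π t))
    (hρ : ∀ t, P.map (π t) = ρ) (a : T → ℝ) :
    k2 P (lf S π a) ≤ (∑ t, |a t|) ^ 4 * k2 ρ S := by
  have hA : ∑ q : T × T, |a q.1 * a q.2| = (∑ t, |a t|) ^ 2 := by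
    rw [sq, Finset.sum_mul_sum, Fintype.sum_prod_type]
    exact Finset.sum_congr rfl fun t _ => Finset.sum_congr rfl fun t' _ => abs_mul _ _
  have h1 : ∀ p, ov (lf S π a) p ^ 2 ≤
      (∑ t, |a t|) ^ 2 * ∑ q : T × T, |a q.1 * a q.2| * ov S (π q.1 p.1, π q.2 p.2) ^ 2 := by
    intro p
    have h2 := wcs Finset.univ (fun q : T × T => |a q.1 * a q.2|)
      (fun q => |ov S (π q.1 p.1, π q.2 p.2)|) fun q _ => abs_nonneg _
    simp only [sq_abs] at h2
    rw [hA] at h2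
    refine le_trans ?_ h2
    rw [← sq_abs (ov (lf S π a) p)]
    refine pow_le_pow_left₀ (abs_nonneg _) ?_ 2
    rw [ov_lf]
    refine (Finset.abs_sum_le_sum_abs _ _).trans (Finset.sum_le_sum fun q _ => ?_)
    rw [abs_mul]
  have hb : ∀ q : T × T, Bd fun p : Y × Y => ov S (π q.1 p.1, π q.2 p.2) := fun q =>
    (bd_ov hS).comp (((hπ q.1).comp measurable_fst).prodMk ((hπ q.2).comp measurable_snd))
  refine (two_mono ((bd_ov (bd_lf hS hπ a)).pow 2) ((Bd.const _).mul (Bd.sum _ fun q _ =>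
    (Bd.const _).mul ((hb q).pow 2))) h1).trans ?_
  unfold two
  rw [integral_const_mul, integral_finsetSum _ fun q _ =>
    ((Bd.const _).mul ((hb q).pow 2)).integrable _]
  simp only [integral_const_mul]
  have h3 : ∀ q : T × T, ∫ p, ov S (π q.1 p.1, π q.2 p.2) ^ 2 ∂(P.prod P) = k2 ρ S := fun q =>
    two_map (P := P) (ρ := ρ) hπ hρ q.1 q.2 (F := fun p => ov S p ^ 2) ((bd_ov hS).pow 2).1
  simp only [h3]
  rw [← Finset.sum_mul, hA]
  exact le_of_eq (by ring)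

lemma k4_lf [IsProbabilityMeasure ρ] (hS : ∀ e, Bd (S e)) (hπ : ∀ t, Measurable (π t))
    (hρ : ∀ t, P.map (π t) = ρ) (a : T → ℝ) :
    k4 P (lf S π a) ≤ (∑ t, |a t|) ^ 8 * k4 ρ S := by
  have hA : ∑ q : T × T, |a q.1 * a q.2| = (∑ t, |a t|) ^ 2 := by
    rw [sq, Finset.sum_mul_sum, Fintype.sum_prod_type]
    exact Finset.sum_congr rfl fun t _ => Finset.sum_congr rfl fun t' _ => abs_mul _ _
  have h1 : ∀ p, ov (lf S π a) p ^ 4 ≤
      (∑ t, |a t|) ^ 6 * ∑ q : T × T, |a q.1 * a q.2| * ov S (π q.1 p.1, π q.2 p.2) ^ 4 := by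
    intro p
    have h2 := wcs Finset.univ (fun q : T × T => |a q.1 * a q.2|)
      (fun q => |ov S (π q.1 p.1, π q.2 p.2)|) fun q _ => abs_nonneg _
    have h2' := wcs Finset.univ (fun q : T × T => |a q.1 * a q.2|)
      (fun q => ov S (π q.1 p.1, π q.2 p.2) ^ 2) fun q _ => abs_nonneg _
    simp only [sq_abs] at h2
    rw [hA] at h2 h2'
    have h3 : |ov (lf S π a) p| ^ 2 ≤ (∑ t, |a t|) ^ 2 *
        ∑ q : T × T, |a q.1 * a q.2| * ov S (π q.1 p.1, π q.2 p.2) ^ 2 := by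
      refine le_trans ?_ h2
      refine pow_le_pow_left₀ (abs_nonneg _) ?_ 2
      rw [ov_lf]
      refine (Finset.abs_sum_le_sum_abs _ _).trans (Finset.sum_le_sum fun q _ => ?_)
      rw [abs_mul]
    have h4 : ov (lf S π a) p ^ 4 = (|ov (lf S π a) p| ^ 2) ^ 2 := by
      rw [sq_abs]
      ring
    rw [h4]
    refine (pow_le_pow_left₀ (by positivity) h3 2).trans ?_
    rw [mul_pow]
    refine (mul_le_mul_of_nonneg_left h2' (by positivity)).trans (le_of_eq ?_)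
    have h5 : ∀ q : T × T, (ov S (π q.1 p.1, π q.2 p.2) ^ 2) ^ 2 =
        ov S (π q.1 p.1, π q.2 p.2) ^ 4 := fun q => by ring
    simp only [h5]
    ring
  have hb : ∀ q : T × T, Bd fun p : Y × Y => ov S (π q.1 p.1, π q.2 p.2) := fun q =>
    (bd_ov hS).comp (((hπ q.1).comp measurable_fst).prodMk ((hπ q.2).comp measurable_snd))
  refine (two_mono ((bd_ov (bd_lf hS hπ a)).pow 4) ((Bd.const _).mul (Bd.sum _ fun q _ =>
    (Bd.const _).mul ((hb q).pow 4))) h1).trans ?_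
  unfold two
  rw [integral_const_mul, integral_finsetSum _ fun q _ =>
    ((Bd.const _).mul ((hb q).pow 4)).integrable _]
  simp only [integral_const_mul]
  have h3 : ∀ q : T × T, ∫ p, ov S (π q.1 p.1, π q.2 p.2) ^ 4 ∂(P.prod P) = k4 ρ S := fun q =>
    two_map (P := P) (ρ := ρ) hπ hρ q.1 q.2 (F := fun p => ov S p ^ 4) ((bd_ov hS).pow 4).1
  simp only [h3]
  rw [← Finset.sum_mul, hA]
  exact le_of_eq (by ring)

end Form

end Vale.Agent.P146.H919
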