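import Vale.Agent.P146.H919.Brk
import Vale.Agent.P146.H919.Form
import Vale.Agent.P146.H980.C3Up

/-!
Bracket calculus, part 2: the normalised brackets `D.nb r Φ = D.br r Φ / D.M`, their probability
measures, the root law, derivatives of quotients, bounds by the overlaps of two copies.
-/

open MeasureTheory ProbabilityTheory Filter Topology

namespace Vale.Agent.P146.H919

open Vale.Agent.P157.Lv Vale.Agent.P146.H980 Form

set_option linter.unusedSectionVars false

namespace Dt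

variable {Ω X ι : Type} [MeasurableSpace Ω] [MeasurableSpace X] [Fintype ι]
  {D : Dt Ω X ι} {h0 : Ω → ℝ} {M0 : ℝ}

/-- the mass -/
noncomputable def M (D : Dt Ω X ι) (B : ι → ℝ) : ℝ := ∫ ω, D.Z B ω ^ D.x ∂D.Q

/-- the Gibbs average -/
noncomputable def gb (D : Dt Ω X ι) (f : X → ℝ) (B : ι → ℝ) (ω : Ω) : ℝ :=
  (∫ s, Real.exp (D.en B ω s) * f s ∂D.m) / D.Z B ω

/-- the normalised bracket -/
noncomputable def nb (D : Dt Ω X ι) (r : ℕ) (Φ : (Fin r → X) → ℝ) (B : ι → ℝ) : ℝ :=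
  D.br r Φ B / D.M B

/-- Functions of one replica. -/
lemma Ok.br_marg (h : D.Ok h0 M0) {r : ℕ} (t : Fin r) (f : X → ℝ) (B : ι → ℝ) :
    D.br r (fun σ => f (σ t)) B = ∫ ω, D.Z B ω ^ D.x * D.gb f B ω ∂D.Q := by
  have hfm := h.fm
  unfold br
  refine integral_congr_ae (Eventually.of_forall fun ω => ?_)
  simp only
  have hZ := h.Z_pos B ω
  set G : Fin r → X → ℝ := fun i s => Real.exp (D.en B ω s) * (if i = t then f s else 1) with hG
  have h1 : ∀ σ : Fin r → X, D.wt r B ω σ * f (σ t) =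
      D.Z B ω ^ (D.x - r) * ∏ i, G i (σ i) := by
    intro σ
    have h2 : ∏ i, G i (σ i) = (∏ i, Real.exp (D.en B ω (σ i))) * f (σ t) := by
      simp only [hG, Finset.prod_mul_distrib]
      congr 1
      rw [Finset.prod_eq_single t]
      · simp
      · intro i _ hi
        simp [hi]
      · intro hc
        exact (hc (Finset.mem_univ t)).elim
    rw [h2]
    unfold wt
    ring
  simp only [h1]
  rw [integral_const_mul, integral_fintype_prod_eq_prod (μ := fun _ : Fin r => D.m) G]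
  have h3 : ∏ i, ∫ s, G i s ∂D.m = D.Z B ω ^ r * ∏ i, ((∫ s, G i s ∂D.m) / D.Z B ω) := by
    rw [Finset.prod_div_distrib, Finset.prod_const, Finset.card_univ, Fintype.card_fin]
    field_simp
  have h4 : ∏ i, ((∫ s, G i s ∂D.m) / D.Z B ω) = D.gb f B ω := by
    rw [Finset.prod_eq_single t]
    · simp only [hG, if_true]
      rfl
    · intro i _ hi
      simp only [hG, hi, if_false, mul_one]
      exact div_self hZ.ne'
    · intro hc
      exact (hc (Finset.mem_univ t)).elim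
  rw [h3, h4, ← mul_assoc]
  congr 1
  rw [← Real.rpow_natCast, ← Real.rpow_add hZ]
  congr 1
  ring

lemma Ok.br_const (h : D.Ok h0 M0) (r : ℕ) (c : ℝ) (B : ι → ℝ) :
    D.br r (fun _ => c) B = c * D.M B := by
  have hfm := h.fm
  unfold br M
  rw [← integral_const_mul]
  refine integral_congr_ae (Eventually.of_forall fun ω => ?_)
  simp only
  have hZ := h.Z_pos B ω
  have h1 : ∀ σ : Fin r → X, D.wt r B ω σ * c =
      (c * D.Z B ω ^ (D.x - r)) * ∏ i, Real.exp (D.en B ω (σ i)) := fun σ => by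
    unfold wt
    ring
  simp only [h1]
  rw [integral_const_mul, integral_fintype_prod_eq_pow (fun s => Real.exp (D.en B ω s))]
  rw [Fintype.card_fin]
  have h2 : (∫ s, Real.exp (D.en B ω s) ∂D.m) = D.Z B ω := rfl
  rw [h2, ← Real.rpow_natCast, mul_assoc, ← Real.rpow_add hZ]
  congr 2
  ring

lemma Ok.int_Zx (h : D.Ok h0 M0) (B : ι → ℝ) : Integrable (fun ω => D.Z B ω ^ D.x) D.Q := by
  refine ((h.int_bb D.x B).const_mul (D.mX ^ D.x)).mono'
    ((h.Z_meas.comp measurable_prodMk_left).pow_const _).aestronglyMeasurable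
    (Eventually.of_forall fun ω => ?_)
  rw [Real.norm_eq_abs, abs_of_nonneg (Real.rpow_nonneg (h.Z_pos B ω).le _)]
  have := h.Z_rpow_le D.x B ω
  rwa [abs_of_nonneg h.x0] at this

lemma Ok.M_pos (h : D.Ok h0 M0) (B : ι → ℝ) : 0 < D.M B := by
  have hp := h.pQ
  have h1 : ∀ ω, 0 < D.Z B ω ^ D.x := fun ω => Real.rpow_pos_of_pos (h.Z_pos B ω) _
  unfold M
  rw [integral_pos_iff_support_of_nonneg (fun ω => (h1 ω).le) (h.int_Zx B)]
  have h2 : Function.support (fun ω => D.Z B ω ^ D.x) = Set.univ :=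
    Set.eq_univ_of_forall fun ω => (h1 ω).ne'
  rw [h2, measure_univ]
  exact one_pos

lemma Ok.nb_const (h : D.Ok h0 M0) (r : ℕ) (c : ℝ) (B : ι → ℝ) :
    D.nb r (fun _ => c) B = c := by
  unfold nb
  rw [h.br_const, mul_div_assoc, div_self (h.M_pos B).ne', mul_one]

lemma Ok.nb_marg (h : D.Ok h0 M0) {r r' : ℕ} (t : Fin r) (t' : Fin r') (f : X → ℝ)
    (B : ι → ℝ) : D.nb r (fun σ => f (σ t)) B = D.nb r' (fun σ => f (σ t')) B := by
  unfold nb
  rw [h.br_marg, h.br_marg]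

/-! ### the probability measures -/

/-- the law of `r` replicas -/
noncomputable def Pr (D : Dt Ω X ι) (r : ℕ) (B : ι → ℝ) : Measure (Ω × (Fin r → X)) :=
  (D.QX r).withDensity fun p => ENNReal.ofReal (D.wt r B p.1 p.2 / D.M B)

lemma Ok.wtm (h : D.Ok h0 M0) (r : ℕ) (B : ι → ℝ) :
    Measurable fun p : Ω × (Fin r → X) => D.wt r B p.1 p.2 :=
  (h.wt_meas r).comp ((measurable_const.prodMk measurable_fst).prodMk measurable_snd)

lemma Ok.wti (h : D.Ok h0 M0) (r : ℕ) (B : ι → ℝ) :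
    Integrable (fun p : Ω × (Fin r → X) => D.wt r B p.1 p.2) (D.QX r) := by
  have := h.int_wt (Φ := fun _ : Fin r → X => (1 : ℝ)) (Bm.const 1) B
  simpa only [mul_one] using this

lemma Ok.pPr (h : D.Ok h0 M0) (r : ℕ) (B : ι → ℝ) : IsProbabilityMeasure (D.Pr r B) := by
  have hp := h.pQ
  have hfm := h.fm
  have hM := h.M_pos B
  constructor
  unfold Pr
  rw [withDensity_apply _ MeasurableSet.univ, Measure.restrict_univ,
    ← ofReal_integral_eq_lintegral_ofReal ((h.wti r B).div_const _)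
      (Eventually.of_forall fun p => div_nonneg (h.wt_nonneg r B p.1 p.2) hM.le), integral_div]
  have h1 : (∫ p, D.wt r B p.1 p.2 ∂(D.QX r)) = D.M B := by
    have h2 := h.br_eq (Φ := fun _ : Fin r → X => (1 : ℝ)) (Bm.const 1) B
    simp only [mul_one] at h2
    rw [← h2, h.br_const, one_mul]
  rw [h1, div_self hM.ne', ENNReal.ofReal_one]

lemma Ok.int_Pr (h : D.Ok h0 M0) {r : ℕ} {Φ : (Fin r → X) → ℝ} (hΦ : Bm Φ) (B : ι → ℝ) :
    ∫ p, Φ p.2 ∂(D.Pr r B) = D.nb r Φ B := by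
  have hM := h.M_pos B
  have hm : Measurable fun p : Ω × (Fin r → X) => ENNReal.ofReal (D.wt r B p.1 p.2 / D.M B) :=
    ENNReal.measurable_ofReal.comp ((h.wtm r B).div_const _)
  unfold Pr nb
  rw [integral_withDensity_eq_integral_toReal_smul hm
    (Eventually.of_forall fun p => ENNReal.ofReal_lt_top), h.br_eq hΦ, ← integral_div]
  refine integral_congr_ae (Eventually.of_forall fun p => ?_)
  simp only [smul_eq_mul]
  rw [ENNReal.toReal_ofReal (div_nonneg (h.wt_nonneg r B p.1 p.2) hM.le)]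
  ring

/-- the root law -/
noncomputable def rt (D : Dt Ω X ι) (B : ι → ℝ) : Measure X := (D.Pr 1 B).map fun p => p.2 0

lemma meas_ev {r : ℕ} (t : Fin r) : Measurable fun p : Ω × (Fin r → X) => p.2 t :=
  (measurable_pi_apply t).comp measurable_snd

lemma Ok.prt (h : D.Ok h0 M0) (B : ι → ℝ) : IsProbabilityMeasure (D.rt B) := by
  have := h.pPr 1 B
  exact Measure.isProbabilityMeasure_map (meas_ev 0).aemeasurable

lemma Ok.map_Pr (h : D.Ok h0 M0) {r : ℕ} (t : Fin r) (B : ι → ℝ) :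
    (D.Pr r B).map (fun p => p.2 t) = D.rt B := by
  have h1 := h.pPr r B
  have h2 := h.pPr 1 B
  have h3 := h.prt B
  have h4 : IsProbabilityMeasure ((D.Pr r B).map fun p => p.2 t) :=
    Measure.isProbabilityMeasure_map (meas_ev t).aemeasurable
  refine Measure.ext fun s hs => ?_
  rw [← ENNReal.toReal_eq_toReal_iff' (measure_ne_top _ _) (measure_ne_top _ _)]
  have hb : Bm (s.indicator fun _ : X => (1 : ℝ)) :=
    ⟨measurable_const.indicator hs, 1, fun y => by
      by_cases hy : y ∈ s <;> simp [hy]⟩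
  have key : ∀ {r : ℕ} (t : Fin r), (((D.Pr r B).map fun p => p.2 t) s).toReal =
      D.nb r (fun σ => s.indicator (fun _ => (1 : ℝ)) (σ t)) B := by
    intro r t
    rw [← h.int_Pr (hb.comp (measurable_pi_apply t)) B, Measure.map_apply (meas_ev t) hs]
    have h5 : (fun p : Ω × (Fin r → X) => s.indicator (fun _ => (1 : ℝ)) (p.2 t)) =
        ((fun p : Ω × (Fin r → X) => p.2 t) ⁻¹' s).indicator fun _ => (1 : ℝ) := by
      funext p
      rfl
    rw [h5, integral_indicator (meas_ev t hs)]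
    simp [Measure.real]
  rw [key t]
  unfold rt
  rw [key (0 : Fin 1)]
  exact h.nb_marg _ _ _ _

lemma Ok.int_rt (h : D.Ok h0 M0) {f : X → ℝ} (hf : Bm f) (B : ι → ℝ) :
    ∫ s, f s ∂(D.rt B) = D.nb 1 (fun σ => f (σ 0)) B := by
  unfold rt
  rw [integral_map (meas_ev 0).aemeasurable hf.1.aestronglyMeasurable]
  exact h.int_Pr (hf.comp (measurable_pi_apply 0)) B

lemma Ok.abs_nb (h : D.Ok h0 M0) {r : ℕ} {Φ : (Fin r → X) → ℝ} (hΦ : Bm Φ) {C : ℝ}
    (hC : ∀ σ, |Φ σ| ≤ C) (B : ι → ℝ) : |D.nb r Φ B| ≤ C := by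
  have := h.pPr r B
  rw [← h.int_Pr hΦ B]
  refine (abs_integral_le_integral_abs).trans ?_
  have h1 : ∫ p, |Φ p.2| ∂(D.Pr r B) ≤ ∫ _, C ∂(D.Pr r B) := by
    refine integral_mono_of_nonneg (Eventually.of_forall fun p => abs_nonneg _)
      (integrable_const _) (Eventually.of_forall fun p => hC p.2)
  simpa using h1

lemma Ok.nb_add (h : D.Ok h0 M0) {r : ℕ} {Φ Ψ : (Fin r → X) → ℝ} (hΦ : Bm Φ) (hΨ : Bm Ψ)
    (B : ι → ℝ) : D.nb r (fun σ => Φ σ + Ψ σ) B = D.nb r Φ B + D.nb r Ψ B := by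
  have := h.pPr r B
  rw [← h.int_Pr hΦ, ← h.int_Pr hΨ, ← h.int_Pr (hΦ.add hΨ)]
  exact integral_add (Bd.integrable (f := fun p : Ω × (Fin r → X) => Φ p.2)
    (Bd.comp hΦ measurable_snd) _) (Bd.integrable (f := fun p : Ω × (Fin r → X) => Ψ p.2)
    (Bd.comp hΨ measurable_snd) _)

lemma nb_cmul (D : Dt Ω X ι) (r : ℕ) (c : ℝ) (Φ : (Fin r → X) → ℝ) (B : ι → ℝ) :
    D.nb r (fun σ => c * Φ σ) B = c * D.nb r Φ B := by
  unfold nb br
  rw [← mul_div_assoc, ← integral_const_mul]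
  congr 1
  refine integral_congr_ae (Eventually.of_forall fun ω => ?_)
  simp only
  rw [← integral_const_mul]
  exact integral_congr_ae (Eventually.of_forall fun σ => by simp only; ring)

/-! ### measurability in the row -/

lemma Ok.br_meas (h : D.Ok h0 M0) {r : ℕ} {Φ : (Fin r → X) → ℝ} (hΦ : Bm Φ) :
    Measurable (D.br r Φ) := by
  have hp := h.pQ
  have hfm := h.fm
  unfold br
  have h1 : Measurable fun p : (ι → ℝ) × Ω =>
      ∫ σ, D.wt r p.1 p.2 σ * Φ σ ∂(Measure.pi fun _ => D.m) :=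
    (StronglyMeasurable.integral_prod_right (ν := Measure.pi fun _ : Fin r => D.m)
      (f := fun (p : (ι → ℝ) × Ω) (σ : Fin r → X) => D.wt r p.1 p.2 σ * Φ σ)
      (((h.wt_meas r).mul (hΦ.1.comp measurable_snd)).stronglyMeasurable)).measurable
  exact (StronglyMeasurable.integral_prod_right (ν := D.Q)
    (f := fun (B : ι → ℝ) (ω : Ω) => ∫ σ, D.wt r B ω σ * Φ σ ∂(Measure.pi fun _ => D.m))
    h1.stronglyMeasurable).measurable

lemma Ok.M_meas (h : D.Ok h0 M0) : Measurable D.M := by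
  have h1 := h.br_meas (r := 0) (Φ := fun _ => (1 : ℝ)) (Bm.const 1)
  have h2 : D.br 0 (fun _ => (1 : ℝ)) = D.M := by
    funext B
    rw [h.br_const, one_mul]
  rwa [h2] at h1

lemma Ok.eg_nb (h : D.Ok h0 M0) {r : ℕ} {Φ : (Fin r → X) → ℝ} (hΦ : Bm Φ) :
    EG (D.nb r Φ) := by
  obtain ⟨C, hC⟩ := hΦ.2
  exact EG.of_bdd ((h.br_meas hΦ).div h.M_meas) fun B => h.abs_nb hΦ hC B

lemma Ok.M_le (h : D.Ok h0 M0) : ∃ C a : ℝ, 0 ≤ C ∧ 0 ≤ a ∧
    ∀ B : ι → ℝ, D.M B ≤ C * Real.exp (a * ‖B‖) := by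
  have hM0 := h.Mn
  have hx := h.x0
  refine ⟨D.mX ^ D.x * ∫ ω, Real.exp (D.x * h0 ω) ∂D.Q, D.x * (M0 * Fintype.card ι),
    mul_nonneg (Real.rpow_nonneg h.mX0.le _) (integral_nonneg fun ω => (Real.exp_pos _).le),
    by positivity, fun B => ?_⟩
  have h1 : D.M B ≤ ∫ ω, D.mX ^ D.x * Real.exp (D.x * bb h0 M0 B ω) ∂D.Q := by
    refine integral_mono (h.int_Zx B) ((h.int_bb D.x B).const_mul _) fun ω => ?_
    have := h.Z_rpow_le D.x B ω
    rwa [abs_of_nonneg h.x0] at this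
  refine h1.trans ?_
  have h2 : ∀ ω, D.mX ^ D.x * Real.exp (D.x * bb h0 M0 B ω) ≤
      D.mX ^ D.x * Real.exp (D.x * h0 ω) * Real.exp (D.x * (M0 * Fintype.card ι) * ‖B‖) := by
    intro ω
    rw [mul_assoc, ← Real.exp_add]
    refine mul_le_mul_of_nonneg_left (Real.exp_le_exp.2 ?_) (Real.rpow_nonneg h.mX0.le _)
    unfold bb
    have h3 : ∑ e, |B e| ≤ Fintype.card ι * ‖B‖ := by
      refine (Finset.sum_le_sum fun e _ => (by
        rw [← Real.norm_eq_abs]; exact norm_le_pi_norm B e : |B e| ≤ ‖B‖)).trans ?_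
      rw [Finset.sum_const, Finset.card_univ, nsmul_eq_mul]
    have h4 := mul_le_mul_of_nonneg_left (mul_le_mul_of_nonneg_left h3 hM0) hx
    nlinarith
  refine (integral_mono ((h.int_bb D.x B).const_mul _)
    (((h.h0i D.x).const_mul _).mul_const _) h2).trans (le_of_eq ?_)
  rw [integral_mul_const, integral_const_mul]

/-! ### the derivatives of the normalised brackets -/

/-- the first derivative of `log M` -/
noncomputable def v1 (D : Dt Ω X ι) (e : ι) (B : ι → ℝ) : ℝ :=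
  D.x * D.nb 1 (fun σ => D.S e (σ 0)) B

variable [DecidableEq ι]

lemma Ok.pd_M (h : D.Ok h0 M0) (e : ι) : PD e D.M (fun B => D.M B * D.v1 e B) := by
  have h1 := h.pd_br (r := 0) (Φ := fun _ => (1 : ℝ)) (Bm.const 1) e
  have h2 : D.br 0 (fun _ => (1 : ℝ)) = D.M := by
    funext B
    rw [h.br_const, one_mul]
  rw [h2] at h1
  refine h1.congr fun B => ?_
  have h3 : (D.dd 0 e fun _ => (1 : ℝ)) = fun σ => D.x * D.S e (σ 0) := by
    funext σ
    simp only [dd, Finset.univ_eq_empty, Finset.sum_empty, zero_add, one_mul, Nat.cast_zero,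
      sub_zero]
    rfl
  have h4 : D.br 1 (fun σ => D.x * D.S e (σ 0)) B = D.M B * D.nb 1 (fun σ => D.x *
      D.S e (σ 0)) B := by
    unfold nb
    field_simp [(h.M_pos B).ne']
  rw [h3, h4]
  unfold v1
  rw [nb_cmul]

lemma Ok.pd_nb (h : D.Ok h0 M0) {r : ℕ} {Φ : (Fin r → X) → ℝ} (hΦ : Bm Φ) (e : ι) :
    PD e (D.nb r Φ) (fun B => D.nb (r + 1) (D.dd r e Φ) B - D.nb r Φ B * D.v1 e B) := by
  have h1 := (h.pd_br hΦ e).div (h.pd_M e) fun B => (h.M_pos B).ne'
  refine h1.congr fun B => ?_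
  have hM := (h.M_pos B).ne'
  unfold nb
  field_simp

lemma Ok.pd_log (h : D.Ok h0 M0) (e : ι) : PD e (fun B => Real.log (D.M B)) (D.v1 e) := by
  refine ((h.pd_M e).log fun B => (h.M_pos B).ne').congr fun B => ?_
  rw [mul_comm, mul_div_assoc, div_self (h.M_pos B).ne', mul_one]

end Dt

end Vale.Agent.P146.H919
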