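import Vale.Agent.P146.H919.Brk2

/-!
Bracket calculus, part 3: three derivatives of `N = nb 1 θ`, two of the gradient of `log M`, their
sums of squares are bounded by `r1 = √r2`, `r2`, `r3 = √(r2 r4)`, where `r2` and `r4` are the second
and the fourth moment of the overlap of two copies.
-/

open MeasureTheory ProbabilityTheory Filter Topology

namespace Vale.Agent.P146.H919

open Vale.Agent.P157.Lv Vale.Agent.P146.H980 Form

set_option linter.unusedSectionVars false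

namespace Dt

variable {Ω X ι : Type} [MeasurableSpace Ω] [MeasurableSpace X] [Fintype ι]
  {D : Dt Ω X ι} {h0 : Ω → ℝ} {M0 : ℝ}

/-! ### linear forms of replicas -/

/-- a linear form of replicas -/
def lr (D : Dt Ω X ι) {r : ℕ} (a : Fin r → ℝ) (e : ι) (σ : Fin r → X) : ℝ :=
  ∑ t, a t * D.S e (σ t)

/-- one more replica with the coefficient `0` -/
def up {r : ℕ} (a : Fin r → ℝ) : Fin (r + 1) → ℝ := Fin.snoc a 0

/-- the coefficients of the derivative -/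
def cf (x : ℝ) (r : ℕ) : Fin (r + 1) → ℝ := Fin.snoc (fun _ : Fin r => (1 : ℝ)) (x - r)

lemma lr_up {r : ℕ} (a : Fin r → ℝ) (e : ι) (σ : Fin (r + 1) → X) :
    D.lr a e (ini σ) = D.lr (up a) e σ := by
  unfold lr up
  rw [Fin.sum_univ_castSucc]
  simp only [Fin.snoc_castSucc, Fin.snoc_last, zero_mul, add_zero]
  rfl

lemma dd_eq (D : Dt Ω X ι) (r : ℕ) (e : ι) (Φ : (Fin r → X) → ℝ) (σ : Fin (r + 1) → X) :
    D.dd r e Φ σ = Φ (ini σ) * D.lr (cf D.x r) e σ := by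
  unfold dd lr cf
  rw [Fin.sum_univ_castSucc]
  simp only [Fin.snoc_castSucc, Fin.snoc_last, one_mul]

lemma sum_up {r : ℕ} (a : Fin r → ℝ) : ∑ t, |up a t| = ∑ t, |a t| := by
  unfold up
  rw [Fin.sum_univ_castSucc]
  simp only [Fin.snoc_castSucc, Fin.snoc_last, abs_zero, add_zero]

lemma sum_cf (x : ℝ) (r : ℕ) : ∑ t, |cf x r t| = r + |x - r| := by
  unfold cf
  rw [Fin.sum_univ_castSucc]
  simp only [Fin.snoc_castSucc, Fin.snoc_last, abs_one, Finset.sum_const, Finset.card_univ,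
    Fintype.card_fin, nsmul_eq_mul, mul_one]

lemma Ok.cf_le (h : D.Ok h0 M0) (r : ℕ) : ∑ t, |cf D.x (r + 1) t| ≤ 2 * (r + 1) := by
  rw [sum_cf]
  have h1 := h.x0
  have h2 := h.x1
  have h3 : (0 : ℝ) ≤ r := Nat.cast_nonneg r
  rw [abs_of_nonpos (by push_cast; linarith)]
  push_cast
  linarith

lemma Ok.bm_lr (h : D.Ok h0 M0) {r : ℕ} (a : Fin r → ℝ) (e : ι) : Bm (D.lr a e) := by
  unfold lr
  exact Bm.sum _ fun t _ => (Bm.const _).mul ((h.bmS e).comp (measurable_pi_apply t))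

/-! ### overlaps of two copies -/

/-- second moment of the overlap of two copies -/
noncomputable def r2 (D : Dt Ω X ι) (B : ι → ℝ) : ℝ :=
  ∑ e : ι × ι, (D.nb 1 (fun σ => D.S e.1 (σ 0) * D.S e.2 (σ 0)) B) ^ 2

/-- fourth moment of the overlap of two copies -/
noncomputable def r4 (D : Dt Ω X ι) (B : ι → ℝ) : ℝ :=
  ∑ e : (ι × ι) × (ι × ι), (D.nb 1 (fun σ => (D.S e.1.1 (σ 0) * D.S e.1.2 (σ 0)) *
    (D.S e.2.1 (σ 0) * D.S e.2.2 (σ 0))) B) ^ 2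

lemma Ok.k2_rt (h : D.Ok h0 M0) (B : ι → ℝ) : k2 (D.rt B) D.S = D.r2 B := by
  have := h.prt B
  rw [k2_eq fun e => h.bmS e]
  unfold r2
  refine Finset.sum_congr rfl fun e _ => ?_
  rw [h.int_rt (f := fun s => D.S e.1 s * D.S e.2 s) ((h.bmS e.1).mul (h.bmS e.2)) B]

lemma Ok.k4_rt (h : D.Ok h0 M0) (B : ι → ℝ) : k4 (D.rt B) D.S = D.r4 B := by
  have := h.prt B
  rw [k4_eq fun e => h.bmS e]
  unfold r4
  refine Finset.sum_congr rfl fun e _ => ?_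
  rw [h.int_rt (f := fun s => (D.S e.1.1 s * D.S e.1.2 s) * (D.S e.2.1 s * D.S e.2.2 s))
    (((h.bmS e.1.1).mul (h.bmS e.1.2)).mul ((h.bmS e.2.1).mul (h.bmS e.2.2))) B]

lemma r2_nonneg (D : Dt Ω X ι) (B : ι → ℝ) : 0 ≤ D.r2 B := Finset.sum_nonneg fun _ _ => sq_nonneg _

lemma r4_nonneg (D : Dt Ω X ι) (B : ι → ℝ) : 0 ≤ D.r4 B := Finset.sum_nonneg fun _ _ => sq_nonneg _

lemma Ok.r2_sq_le (h : D.Ok h0 M0) (B : ι → ℝ) : D.r2 B ^ 2 ≤ D.r4 B := by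
  have := h.prt B
  rw [← h.k2_rt B, ← h.k4_rt B]
  exact k2_sq_le fun e => h.bmS e

lemma Ok.k2_lr (h : D.Ok h0 M0) {r : ℕ} (a : Fin r → ℝ) {A : ℝ} (hA : ∑ t, |a t| ≤ A)
    (B : ι → ℝ) : k2 (D.Pr r B) (fun e p => D.lr a e p.2) ≤ A ^ 4 * D.r2 B := by
  have i1 := h.prt B
  have i2 := h.pPr r B
  have h1 := k2_lf (P := D.Pr r B) (ρ := D.rt B) (S := D.S) (π := fun t p => p.2 t)
    (fun e => h.bmS e) (fun t => meas_ev t) (fun t => h.map_Pr t B) a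
  rw [h.k2_rt B] at h1
  exact h1.trans (mul_le_mul_of_nonneg_right (pow_le_pow_left₀ (Finset.sum_nonneg fun _ _ =>
    abs_nonneg _) hA 4) (D.r2_nonneg B))

lemma Ok.k4_lr (h : D.Ok h0 M0) {r : ℕ} (a : Fin r → ℝ) {A : ℝ} (hA : ∑ t, |a t| ≤ A)
    (B : ι → ℝ) : k4 (D.Pr r B) (fun e p => D.lr a e p.2) ≤ A ^ 8 * D.r4 B := by
  have i1 := h.prt B
  have i2 := h.pPr r B
  have h1 := k4_lf (P := D.Pr r B) (ρ := D.rt B) (S := D.S) (π := fun t p => p.2 t)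
    (fun e => h.bmS e) (fun t => meas_ev t) (fun t => h.map_Pr t B) a
  rw [h.k4_rt B] at h1
  exact h1.trans (mul_le_mul_of_nonneg_right (pow_le_pow_left₀ (Finset.sum_nonneg fun _ _ =>
    abs_nonneg _) hA 8) (D.r4_nonneg B))

/-- one form -/
lemma Ok.nb1_le (h : D.Ok h0 M0) {r : ℕ} {Φ : (Fin r → X) → ℝ} (hΦ : Bm Φ) {C0 : ℝ}
    (hC : ∀ σ, |Φ σ| ≤ C0) {a : Fin r → ℝ} {A : ℝ} (hA : ∑ t, |a t| ≤ A) (B : ι → ℝ) :
    ∑ e, (D.nb r (fun σ => Φ σ * D.lr a e σ) B) ^ 2 ≤ C0 ^ 2 * (A ^ 2 * √(D.r2 B)) := by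
  have i2 := h.pPr r B
  have hA0 : 0 ≤ A := (Finset.sum_nonneg fun _ _ => abs_nonneg _).trans hA
  have h1 := mix1 (P := D.Pr r B) (Φ := fun p => Φ p.2) (C0 := C0)
    (F := fun e (p : Ω × (Fin r → X)) => D.lr a e p.2) (hΦ.comp measurable_snd)
    (fun p => hC p.2) (fun e => (h.bm_lr a e).comp measurable_snd)
  have h2 : ∀ e, D.nb r (fun σ => Φ σ * D.lr a e σ) B =
      ∫ p, Φ p.2 * D.lr a e p.2 ∂(D.Pr r B) := fun e =>
    (h.int_Pr (Φ := fun σ => Φ σ * D.lr a e σ) (hΦ.mul (h.bm_lr a e)) B).symm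
  simp only [h2]
  refine h1.trans (mul_le_mul_of_nonneg_left ?_ (sq_nonneg _))
  refine (Real.sqrt_le_sqrt (h.k2_lr a hA B)).trans (le_of_eq ?_)
  rw [Real.sqrt_mul (by positivity)]
  congr 1
  rw [show A ^ 4 = (A ^ 2) ^ 2 by ring, Real.sqrt_sq (by positivity)]

/-- two forms -/
lemma Ok.nb2_le (h : D.Ok h0 M0) {r : ℕ} {Φ : (Fin r → X) → ℝ} (hΦ : Bm Φ) {C0 : ℝ}
    (hC : ∀ σ, |Φ σ| ≤ C0) {a b : Fin r → ℝ} {A A' : ℝ} (hA : ∑ t, |a t| ≤ A)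
    (hB : ∑ t, |b t| ≤ A') (B : ι → ℝ) :
    ∑ e, ∑ f, (D.nb r (fun σ => Φ σ * D.lr a e σ * D.lr b f σ) B) ^ 2 ≤
      C0 ^ 2 * ((A * A') ^ 2 * D.r2 B) := by
  have i2 := h.pPr r B
  have hA0 : 0 ≤ A := (Finset.sum_nonneg fun _ _ => abs_nonneg _).trans hA
  have hB0 : 0 ≤ A' := (Finset.sum_nonneg fun _ _ => abs_nonneg _).trans hB
  have h1 := mix2 (P := D.Pr r B) (Φ := fun p => Φ p.2) (C0 := C0)
    (F := fun e (p : Ω × (Fin r → X)) => D.lr a e p.2)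
    (G := fun e (p : Ω × (Fin r → X)) => D.lr b e p.2) (hΦ.comp measurable_snd)
    (fun p => hC p.2) (fun e => (h.bm_lr a e).comp measurable_snd)
    (fun e => (h.bm_lr b e).comp measurable_snd)
  have h2 : ∀ e f, D.nb r (fun σ => Φ σ * D.lr a e σ * D.lr b f σ) B =
      ∫ p, Φ p.2 * D.lr a e p.2 * D.lr b f p.2 ∂(D.Pr r B) := fun e f =>
    (h.int_Pr (Φ := fun σ => Φ σ * D.lr a e σ * D.lr b f σ)
      ((hΦ.mul (h.bm_lr a e)).mul (h.bm_lr b f)) B).symm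
  rw [Fintype.sum_prod_type] at h1
  simp only [h2]
  refine h1.trans (mul_le_mul_of_nonneg_left ?_ (sq_nonneg _))
  have h3 : k2 (D.Pr r B) (fun e p => D.lr a e p.2) * k2 (D.Pr r B) (fun e p => D.lr b e p.2) ≤
      ((A * A') ^ 2 * D.r2 B) ^ 2 := by
    refine (mul_le_mul (h.k2_lr a hA B) (h.k2_lr b hB B) (k2_nonneg _)
      (mul_nonneg (by positivity) (D.r2_nonneg B))).trans (le_of_eq ?_)
    ring
  refine (Real.sqrt_le_sqrt h3).trans (le_of_eq ?_)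
  exact Real.sqrt_sq (mul_nonneg (by positivity) (D.r2_nonneg B))

/-- three forms -/
lemma Ok.nb3_le (h : D.Ok h0 M0) {r : ℕ} {Φ : (Fin r → X) → ℝ} (hΦ : Bm Φ) {C0 : ℝ}
    (hC : ∀ σ, |Φ σ| ≤ C0) {a b c : Fin r → ℝ} {A A' A'' : ℝ} (hA : ∑ t, |a t| ≤ A)
    (hB : ∑ t, |b t| ≤ A') (hc : ∑ t, |c t| ≤ A'') (B : ι → ℝ) :
    ∑ e, ∑ f, ∑ g, (D.nb r (fun σ => Φ σ * D.lr a e σ * D.lr b f σ * D.lr c g σ) B) ^ 2 ≤
      C0 ^ 2 * ((A * A' * A'') ^ 2 * √(D.r2 B * D.r4 B)) := by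
  have i2 := h.pPr r B
  have hA0 : 0 ≤ A := (Finset.sum_nonneg fun _ _ => abs_nonneg _).trans hA
  have hB0 : 0 ≤ A' := (Finset.sum_nonneg fun _ _ => abs_nonneg _).trans hB
  have hc0 : 0 ≤ A'' := (Finset.sum_nonneg fun _ _ => abs_nonneg _).trans hc
  have hr2 := D.r2_nonneg B
  have hr4 := D.r4_nonneg B
  have h1 := mix3 (P := D.Pr r B) (Φ := fun p => Φ p.2) (C0 := C0)
    (F := fun e (p : Ω × (Fin r → X)) => D.lr a e p.2)
    (G := fun e (p : Ω × (Fin r → X)) => D.lr b e p.2)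
    (H := fun e (p : Ω × (Fin r → X)) => D.lr c e p.2) (hΦ.comp measurable_snd)
    (fun p => hC p.2) (fun e => (h.bm_lr a e).comp measurable_snd)
    (fun e => (h.bm_lr b e).comp measurable_snd) (fun e => (h.bm_lr c e).comp measurable_snd)
  have h2 : ∀ e f g, D.nb r (fun σ => Φ σ * D.lr a e σ * D.lr b f σ * D.lr c g σ) B =
      ∫ p, Φ p.2 * D.lr a e p.2 * D.lr b f p.2 * D.lr c g p.2 ∂(D.Pr r B) := fun e f g =>
    (h.int_Pr (Φ := fun σ => Φ σ * D.lr a e σ * D.lr b f σ * D.lr c g σ)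
      (((hΦ.mul (h.bm_lr a e)).mul (h.bm_lr b f)).mul (h.bm_lr c g)) B).symm
  rw [Fintype.sum_prod_type] at h1
  simp only [Fintype.sum_prod_type] at h1
  simp only [h2]
  refine h1.trans (mul_le_mul_of_nonneg_left ?_ (sq_nonneg _))
  have h3 : √(k4 (D.Pr r B) (fun e p => D.lr b e p.2) * k4 (D.Pr r B) (fun e p => D.lr c e p.2)) ≤
      (A' * A'') ^ 4 * D.r4 B := by
    have h4 : k4 (D.Pr r B) (fun e p => D.lr b e p.2) * k4 (D.Pr r B) (fun e p => D.lr c e p.2) ≤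
        ((A' * A'') ^ 4 * D.r4 B) ^ 2 := by
      refine (mul_le_mul (h.k4_lr b hB B) (h.k4_lr c hc B) (k4_nonneg _)
        (mul_nonneg (by positivity) hr4)).trans (le_of_eq ?_)
      ring
    refine (Real.sqrt_le_sqrt h4).trans (le_of_eq ?_)
    exact Real.sqrt_sq (mul_nonneg (by positivity) hr4)
  have h5 : k2 (D.Pr r B) (fun e p => D.lr a e p.2) *
      √(k4 (D.Pr r B) (fun e p => D.lr b e p.2) * k4 (D.Pr r B) (fun e p => D.lr c e p.2)) ≤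
      ((A * A' * A'') ^ 2) ^ 2 * (D.r2 B * D.r4 B) := by
    refine (mul_le_mul (h.k2_lr a hA B) h3 (Real.sqrt_nonneg _)
      (mul_nonneg (by positivity) hr2)).trans (le_of_eq ?_)
    ring
  refine (Real.sqrt_le_sqrt h5).trans (le_of_eq ?_)
  rw [Real.sqrt_mul (by positivity), Real.sqrt_sq (by positivity)]

end Dt

end Vale.Agent.P146.H919
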