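import Vale.Agent.P146.H919.Brk3

/-!
Bracket calculus, part 4: the third order upper bound for `N = nb 1 θ` (all hypotheses of
`H980.c3_up` are checked).
-/

open MeasureTheory ProbabilityTheory Filter Topology

namespace Vale.Agent.P146.H919

open Vale.Agent.P157.Lv Vale.Agent.P146.H980 Form

set_option linter.unusedSectionVars false

/-! ### algebra of sums of squares -/

namespace Arr

variable {ι : Type} [Fintype ι]

/-- sum of squares -/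
def q1 (a : ι → ℝ) : ℝ := ∑ e, a e ^ 2

/-- sum of squares -/
def q2 (a : ι → ι → ℝ) : ℝ := ∑ e, ∑ f, a e f ^ 2

/-- sum of squares -/
def q3 (a : ι → ι → ι → ℝ) : ℝ := ∑ e, ∑ f, ∑ g, a e f g ^ 2

lemma q1_nonneg (a : ι → ℝ) : 0 ≤ q1 a := Finset.sum_nonneg fun _ _ => sq_nonneg _

lemma q2_nonneg (a : ι → ι → ℝ) : 0 ≤ q2 a :=
  Finset.sum_nonneg fun _ _ => Finset.sum_nonneg fun _ _ => sq_nonneg _

lemma q3_nonneg (a : ι → ι → ι → ℝ) : 0 ≤ q3 a :=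
  Finset.sum_nonneg fun _ _ => Finset.sum_nonneg fun _ _ => Finset.sum_nonneg fun _ _ => sq_nonneg _

lemma two_sq (a b : ℝ) : (a + b) ^ 2 ≤ 2 * (a ^ 2 + b ^ 2) := by nlinarith [sq_nonneg (a - b)]

lemma two_sq' (a b : ℝ) : (a - b) ^ 2 ≤ 2 * (a ^ 2 + b ^ 2) := by nlinarith [sq_nonneg (a + b)]

lemma q1_sub (a b : ι → ℝ) : q1 (fun e => a e - b e) ≤ 2 * (q1 a + q1 b) := by
  unfold q1
  rw [← Finset.sum_add_distrib, Finset.mul_sum]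
  exact Finset.sum_le_sum fun e _ => two_sq' _ _

lemma q2_add (a b : ι → ι → ℝ) : q2 (fun e f => a e f + b e f) ≤ 2 * (q2 a + q2 b) := by
  unfold q2
  simp only [← Finset.sum_add_distrib, Finset.mul_sum]
  exact Finset.sum_le_sum fun e _ => Finset.sum_le_sum fun f _ => two_sq _ _

lemma q2_sub (a b : ι → ι → ℝ) : q2 (fun e f => a e f - b e f) ≤ 2 * (q2 a + q2 b) := by
  unfold q2
  simp only [← Finset.sum_add_distrib, Finset.mul_sum]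
  exact Finset.sum_le_sum fun e _ => Finset.sum_le_sum fun f _ => two_sq' _ _

lemma q3_add (a b : ι → ι → ι → ℝ) :
    q3 (fun e f g => a e f g + b e f g) ≤ 2 * (q3 a + q3 b) := by
  unfold q3
  simp only [← Finset.sum_add_distrib, Finset.mul_sum]
  exact Finset.sum_le_sum fun e _ => Finset.sum_le_sum fun f _ => Finset.sum_le_sum fun g _ =>
    two_sq _ _

lemma q3_sub (a b : ι → ι → ι → ℝ) :
    q3 (fun e f g => a e f g - b e f g) ≤ 2 * (q3 a + q3 b) := by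
  unfold q3
  simp only [← Finset.sum_add_distrib, Finset.mul_sum]
  exact Finset.sum_le_sum fun e _ => Finset.sum_le_sum fun f _ => Finset.sum_le_sum fun g _ =>
    two_sq' _ _

lemma q1_mul (c : ℝ) (a : ι → ℝ) : q1 (fun e => c * a e) = c ^ 2 * q1 a := by
  unfold q1
  rw [Finset.mul_sum]
  exact Finset.sum_congr rfl fun e _ => mul_pow _ _ _

lemma q2_mul (c : ℝ) (a : ι → ι → ℝ) : q2 (fun e f => c * a e f) = c ^ 2 * q2 a := by
  unfold q2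
  simp only [Finset.mul_sum]
  exact Finset.sum_congr rfl fun e _ => Finset.sum_congr rfl fun f _ => mul_pow _ _ _

lemma q3_mul (c : ℝ) (a : ι → ι → ι → ℝ) : q3 (fun e f g => c * a e f g) = c ^ 2 * q3 a := by
  unfold q3
  simp only [Finset.mul_sum]
  exact Finset.sum_congr rfl fun e _ => Finset.sum_congr rfl fun f _ =>
    Finset.sum_congr rfl fun g _ => mul_pow _ _ _

lemma q2_tt (a b : ι → ℝ) : q2 (fun e f => a e * b f) = q1 a * q1 b := by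
  unfold q2 q1
  rw [Finset.sum_mul_sum]
  exact Finset.sum_congr rfl fun e _ => Finset.sum_congr rfl fun f _ => mul_pow _ _ _

lemma q2_tt' (a b : ι → ℝ) : q2 (fun e f => a f * b e) = q1 a * q1 b := by
  rw [mul_comm, ← q2_tt]
  unfold q2
  exact Finset.sum_congr rfl fun e _ => Finset.sum_congr rfl fun f _ => by simp only; ring

lemma q3_1 (a : ι → ι → ℝ) (b : ι → ℝ) : q3 (fun e f g => a e f * b g) = q2 a * q1 b := by
  unfold q3 q2 q1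
  simp only [mul_pow, ← Finset.mul_sum, ← Finset.sum_mul]

lemma q3_2 (a : ι → ι → ℝ) (b : ι → ℝ) : q3 (fun e f g => a e g * b f) = q2 a * q1 b := by
  rw [← q3_1]
  unfold q3
  refine Finset.sum_congr rfl fun e _ => ?_
  rw [Finset.sum_comm]

lemma q3_3 (a : ι → ι → ℝ) (b : ι → ℝ) : q3 (fun e f g => a f g * b e) = q2 a * q1 b := by
  unfold q3 q2 q1
  simp only [mul_pow, ← Finset.sum_mul, ← Finset.mul_sum]

lemma q3_4 (a : ι → ℝ) (b : ι → ι → ℝ) : q3 (fun e f g => a e * b f g) = q1 a * q2 b := by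
  rw [mul_comm, ← q3_3]
  unfold q3
  simp only [mul_comm]

lemma q3_5 (a : ι → ℝ) (b : ι → ι → ℝ) : q3 (fun e f g => a f * b e g) = q1 a * q2 b := by
  rw [mul_comm, ← q3_2]
  unfold q3
  simp only [mul_comm]

lemma q3_6 (a : ι → ℝ) (b : ι → ι → ℝ) : q3 (fun e f g => a g * b e f) = q1 a * q2 b := by
  rw [mul_comm, ← q3_1]
  unfold q3
  simp only [mul_comm]

end Arr

open Arr

namespace Dt

variable {Ω X ι : Type} [MeasurableSpace Ω] [MeasurableSpace X] [Fintype ι] [DecidableEq ι]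
  {D : Dt Ω X ι} {h0 : Ω → ℝ} {M0 : ℝ}

/-- an energy as a function of one replica -/
def sg (D : Dt Ω X ι) (e : ι) : (Fin 1 → X) → ℝ := fun σ => D.S e (σ 0)

/-- an observable as a function of one replica -/
def th (θ : X → ℝ) : (Fin 1 → X) → ℝ := fun σ => θ (σ 0)

lemma Ok.bm_sg (h : D.Ok h0 M0) (e : ι) : Bm (D.sg e) := (h.bmS e).comp (measurable_pi_apply 0)

lemma bm_th {θ : X → ℝ} (hθ : Bm θ) : Bm (th θ) := hθ.comp (measurable_pi_apply 0)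

/-- the observable -/
noncomputable def N (D : Dt Ω X ι) (θ : X → ℝ) : (ι → ℝ) → ℝ := D.nb 1 (th θ)

/-- brackets -/
noncomputable def A1 (D : Dt Ω X ι) (θ : X → ℝ) (e : ι) : (ι → ℝ) → ℝ := D.nb 2 (D.dd 1 e (th θ))

/-- brackets -/
noncomputable def A2 (D : Dt Ω X ι) (θ : X → ℝ) (e f : ι) : (ι → ℝ) → ℝ :=
  D.nb 3 (D.dd 2 f (D.dd 1 e (th θ)))

/-- brackets -/
noncomputable def A3 (D : Dt Ω X ι) (θ : X → ℝ) (e f g : ι) : (ι → ℝ) → ℝ :=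
  D.nb 4 (D.dd 3 g (D.dd 2 f (D.dd 1 e (th θ))))

/-- brackets -/
noncomputable def b2 (D : Dt Ω X ι) (e f : ι) (B : ι → ℝ) : ℝ :=
  D.x * D.nb 2 (D.dd 1 f (D.sg e)) B

/-- brackets -/
noncomputable def b3 (D : Dt Ω X ι) (e f g : ι) (B : ι → ℝ) : ℝ :=
  D.x * D.nb 3 (D.dd 2 g (D.dd 1 f (D.sg e))) B

/-- second derivatives of `log M` -/
noncomputable def v2 (D : Dt Ω X ι) (e f : ι) (B : ι → ℝ) : ℝ :=
  D.b2 e f B - D.v1 e B * D.v1 f B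

/-- third derivatives of `log M` -/
noncomputable def v3 (D : Dt Ω X ι) (e f g : ι) (B : ι → ℝ) : ℝ :=
  D.b3 e f g B - D.b2 e f B * D.v1 g B - (D.v2 e g B * D.v1 f B + D.v1 e B * D.v2 f g B)

/-- first derivatives of `N` -/
noncomputable def n1 (D : Dt Ω X ι) (θ : X → ℝ) (e : ι) (B : ι → ℝ) : ℝ :=
  D.A1 θ e B - D.N θ B * D.v1 e B

/-- second derivatives of `N` -/
noncomputable def n2 (D : Dt Ω X ι) (θ : X → ℝ) (e f : ι) (B : ι → ℝ) : ℝ :=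
  D.A2 θ e f B - D.A1 θ e B * D.v1 f B - (D.n1 θ f B * D.v1 e B + D.N θ B * D.v2 e f B)

/-- third derivatives of `N` -/
noncomputable def n3 (D : Dt Ω X ι) (θ : X → ℝ) (e f g : ι) (B : ι → ℝ) : ℝ :=
  D.A3 θ e f g B - D.A2 θ e f B * D.v1 g B -
      ((D.A2 θ e g B - D.A1 θ e B * D.v1 g B) * D.v1 f B + D.A1 θ e B * D.v2 f g B) -
    (D.n2 θ f g B * D.v1 e B + D.n1 θ f B * D.v2 e g B +
      (D.n1 θ g B * D.v2 e f B + D.N θ B * D.v3 e f g B))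

lemma Ok.pd_v1 (h : D.Ok h0 M0) (e f : ι) : PD f (D.v1 e) (D.v2 e f) := by
  refine ((h.pd_nb (h.bm_sg e) f).const_mul D.x).congr fun B => ?_
  unfold v2 b2 v1 sg
  ring

lemma Ok.pd_b2 (h : D.Ok h0 M0) (e f g : ι) :
    PD g (D.b2 e f) (fun B => D.b3 e f g B - D.b2 e f B * D.v1 g B) := by
  refine ((h.pd_nb (h.bm_dd (h.bm_sg e) f) g).const_mul D.x).congr fun B => ?_
  unfold b2 b3
  ring

lemma Ok.pd_v2 (h : D.Ok h0 M0) (e f g : ι) : PD g (D.v2 e f) (D.v3 e f g) :=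
  (h.pd_b2 e f g).sub ((h.pd_v1 e g).mul (h.pd_v1 f g))

lemma Ok.pd_N (h : D.Ok h0 M0) {θ : X → ℝ} (hθ : Bm θ) (e : ι) : PD e (D.N θ) (D.n1 θ e) :=
  h.pd_nb (bm_th hθ) e

lemma Ok.pd_A1 (h : D.Ok h0 M0) {θ : X → ℝ} (hθ : Bm θ) (e f : ι) :
    PD f (D.A1 θ e) (fun B => D.A2 θ e f B - D.A1 θ e B * D.v1 f B) :=
  h.pd_nb (h.bm_dd (bm_th hθ) e) f

lemma Ok.pd_A2 (h : D.Ok h0 M0) {θ : X → ℝ} (hθ : Bm θ) (e f g : ι) :
    PD g (D.A2 θ e f) (fun B => D.A3 θ e f g B - D.A2 θ e f B * D.v1 g B) :=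
  h.pd_nb (h.bm_dd (h.bm_dd (bm_th hθ) e) f) g

lemma Ok.pd_n1 (h : D.Ok h0 M0) {θ : X → ℝ} (hθ : Bm θ) (e f : ι) :
    PD f (D.n1 θ e) (D.n2 θ e f) :=
  (h.pd_A1 hθ e f).sub ((h.pd_N hθ f).mul (h.pd_v1 e f))

lemma Ok.pd_n2 (h : D.Ok h0 M0) {θ : X → ℝ} (hθ : Bm θ) (e f g : ι) :
    PD g (D.n2 θ e f) (D.n3 θ e f g) :=
  ((h.pd_A2 hθ e f g).sub ((h.pd_A1 hθ e g).mul (h.pd_v1 f g))).sub
    (((h.pd_n1 hθ f g).mul (h.pd_v1 e g)).add ((h.pd_N hθ g).mul (h.pd_v2 e f g)))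

lemma Ok.eg_v1 (h : D.Ok h0 M0) (e : ι) : EG (D.v1 e) := (h.eg_nb (h.bm_sg e)).const_mul D.x

lemma Ok.eg_b2 (h : D.Ok h0 M0) (e f : ι) : EG (D.b2 e f) :=
  (h.eg_nb (h.bm_dd (h.bm_sg e) f)).const_mul D.x

lemma Ok.eg_b3 (h : D.Ok h0 M0) (e f g : ι) : EG (D.b3 e f g) :=
  (h.eg_nb (h.bm_dd (h.bm_dd (h.bm_sg e) f) g)).const_mul D.x

lemma Ok.eg_v2 (h : D.Ok h0 M0) (e f : ι) : EG (D.v2 e f) :=
  (h.eg_b2 e f).sub ((h.eg_v1 e).mul (h.eg_v1 f))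

lemma Ok.eg_v3 (h : D.Ok h0 M0) (e f g : ι) : EG (D.v3 e f g) :=
  ((h.eg_b3 e f g).sub ((h.eg_b2 e f).mul (h.eg_v1 g))).sub
    (((h.eg_v2 e g).mul (h.eg_v1 f)).add ((h.eg_v1 e).mul (h.eg_v2 f g)))

lemma Ok.eg_N (h : D.Ok h0 M0) {θ : X → ℝ} (hθ : Bm θ) : EG (D.N θ) := h.eg_nb (bm_th hθ)

lemma Ok.eg_A1 (h : D.Ok h0 M0) {θ : X → ℝ} (hθ : Bm θ) (e : ι) : EG (D.A1 θ e) :=
  h.eg_nb (h.bm_dd (bm_th hθ) e)

lemma Ok.eg_A2 (h : D.Ok h0 M0) {θ : X → ℝ} (hθ : Bm θ) (e f : ι) : EG (D.A2 θ e f) :=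
  h.eg_nb (h.bm_dd (h.bm_dd (bm_th hθ) e) f)

lemma Ok.eg_A3 (h : D.Ok h0 M0) {θ : X → ℝ} (hθ : Bm θ) (e f g : ι) : EG (D.A3 θ e f g) :=
  h.eg_nb (h.bm_dd (h.bm_dd (h.bm_dd (bm_th hθ) e) f) g)

lemma Ok.eg_n1 (h : D.Ok h0 M0) {θ : X → ℝ} (hθ : Bm θ) (e : ι) : EG (D.n1 θ e) :=
  (h.eg_A1 hθ e).sub ((h.eg_N hθ).mul (h.eg_v1 e))

lemma Ok.eg_n2 (h : D.Ok h0 M0) {θ : X → ℝ} (hθ : Bm θ) (e f : ι) : EG (D.n2 θ e f) :=
  ((h.eg_A2 hθ e f).sub ((h.eg_A1 hθ e).mul (h.eg_v1 f))).sub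
    (((h.eg_n1 hθ f).mul (h.eg_v1 e)).add ((h.eg_N hθ).mul (h.eg_v2 e f)))

lemma Ok.eg_n3 (h : D.Ok h0 M0) {θ : X → ℝ} (hθ : Bm θ) (e f g : ι) : EG (D.n3 θ e f g) :=
  (((h.eg_A3 hθ e f g).sub ((h.eg_A2 hθ e f).mul (h.eg_v1 g))).sub
    ((((h.eg_A2 hθ e g).sub ((h.eg_A1 hθ e).mul (h.eg_v1 g))).mul (h.eg_v1 f)).add
      ((h.eg_A1 hθ e).mul (h.eg_v2 f g)))).sub
    ((((h.eg_n2 hθ f g).mul (h.eg_v1 e)).add ((h.eg_n1 hθ f).mul (h.eg_v2 e g))).add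
      (((h.eg_n1 hθ g).mul (h.eg_v2 e f)).add ((h.eg_N hθ).mul (h.eg_v3 e f g))))

/-! ### the bounds -/

/-- the coefficient `1` -/
def o1 : Fin 1 → ℝ := fun _ => 1

lemma sg_eq (D : Dt Ω X ι) (e : ι) (σ : Fin 1 → X) : D.sg e σ = D.lr o1 e σ := by
  unfold sg lr o1
  simp

lemma sum_o1 : ∑ t, |o1 t| ≤ 1 := by
  unfold o1
  simp

/-- third moment -/
noncomputable def r3 (D : Dt Ω X ι) (B : ι → ℝ) : ℝ := √(D.r2 B * D.r4 B)

/-- first moment -/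
noncomputable def r1 (D : Dt Ω X ι) (B : ι → ℝ) : ℝ := √(D.r2 B)

lemma r1_sq (D : Dt Ω X ι) (B : ι → ℝ) : D.r1 B * D.r1 B = D.r2 B :=
  Real.mul_self_sqrt (D.r2_nonneg B)

lemma r1_nonneg (D : Dt Ω X ι) (B : ι → ℝ) : 0 ≤ D.r1 B := Real.sqrt_nonneg _

lemma r3_nonneg (D : Dt Ω X ι) (B : ι → ℝ) : 0 ≤ D.r3 B := Real.sqrt_nonneg _

lemma Ok.r12 (h : D.Ok h0 M0) (B : ι → ℝ) : D.r2 B * D.r1 B ≤ D.r3 B := by
  unfold r3
  refine Real.le_sqrt_of_sq_le ?_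
  have h1 := D.r1_sq B
  have h2 := h.r2_sq_le B
  have h3 := D.r2_nonneg B
  calc (D.r2 B * D.r1 B) ^ 2 = D.r2 B ^ 2 * (D.r1 B * D.r1 B) := by ring
    _ = D.r2 B * D.r2 B ^ 2 := by rw [h1]; ring
    _ ≤ D.r2 B * D.r4 B := mul_le_mul_of_nonneg_left h2 h3

lemma Ok.q_v1 (h : D.Ok h0 M0) (B : ι → ℝ) : q1 (fun e => D.v1 e B) ≤ D.r1 B := by
  have h1 := h.nb1_le (r := 1) (Φ := fun _ => (1 : ℝ)) (Bm.const 1) (C0 := 1)
    (fun _ => by simp) sum_o1 B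
  simp only [one_mul, one_pow, ← sg_eq] at h1
  have h2 : q1 (fun e => D.v1 e B) = D.x ^ 2 * ∑ e, D.nb 1 (fun σ => D.sg e σ) B ^ 2 := by
    rw [← q1, ← q1_mul]
    rfl
  rw [h2]
  have h3 : D.x ^ 2 ≤ 1 := pow_le_one₀ h.x0 h.x1
  calc D.x ^ 2 * ∑ e, D.nb 1 (fun σ => D.sg e σ) B ^ 2 ≤ 1 * ∑ e, D.nb 1 (fun σ =>
        D.sg e σ) B ^ 2 := mul_le_mul_of_nonneg_right h3 (q1_nonneg _)
    _ ≤ _ := by rw [one_mul]; exact h1

lemma Ok.q_b2 (h : D.Ok h0 M0) (B : ι → ℝ) : q2 (fun e f => D.b2 e f B) ≤ 4 * D.r2 B := by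
  have h1 := h.nb2_le (r := 2) (Φ := fun _ => (1 : ℝ)) (Bm.const 1) (C0 := 1)
    (fun _ => by simp) (a := up o1) (b := cf D.x 1) (A := 1) (A' := 2)
    (by rw [sum_up]; exact sum_o1) (by simpa using h.cf_le 0) B
  have h2 : ∀ e f, D.nb 2 (D.dd 1 f (D.sg e)) B =
      D.nb 2 (fun σ => 1 * D.lr (up o1) e σ * D.lr (cf D.x 1) f σ) B := by
    intro e f
    congr 1
    funext σ
    rw [dd_eq, sg_eq, lr_up, one_mul]
  have h3 : q2 (fun e f => D.b2 e f B) = D.x ^ 2 * ∑ e, ∑ f,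
      D.nb 2 (fun σ => 1 * D.lr (up o1) e σ * D.lr (cf D.x 1) f σ) B ^ 2 := by
    simp only [← h2]
    rw [← q2, ← q2_mul]
    rfl
  rw [h3]
  have h4 : D.x ^ 2 ≤ 1 := pow_le_one₀ h.x0 h.x1
  refine (mul_le_mul h4 h1 (q2_nonneg _) zero_le_one).trans (le_of_eq ?_)
  ring

lemma Ok.q_b3 (h : D.Ok h0 M0) (B : ι → ℝ) : q3 (fun e f g => D.b3 e f g B) ≤ 64 * D.r3 B := by
  have h1 := h.nb3_le (r := 3) (Φ := fun _ => (1 : ℝ)) (Bm.const 1) (C0 := 1)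
    (fun _ => by simp) (a := up (up o1)) (b := up (cf D.x 1)) (c := cf D.x 2)
    (A := 1) (A' := 2) (A'' := 4)
    (by rw [sum_up, sum_up]; exact sum_o1) (by rw [sum_up]; simpa using h.cf_le 0)
    (by have := h.cf_le 1; norm_num at this ⊢; linarith) B
  have h2 : ∀ e f g, D.nb 3 (D.dd 2 g (D.dd 1 f (D.sg e))) B =
      D.nb 3 (fun σ => 1 * D.lr (up (up o1)) e σ * D.lr (up (cf D.x 1)) f σ *
        D.lr (cf D.x 2) g σ) B := by
    intro e f g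
    congr 1
    funext σ
    rw [dd_eq, dd_eq, sg_eq, lr_up, lr_up, lr_up, one_mul]
  have h3 : q3 (fun e f g => D.b3 e f g B) = D.x ^ 2 * ∑ e, ∑ f, ∑ g,
      D.nb 3 (fun σ => 1 * D.lr (up (up o1)) e σ * D.lr (up (cf D.x 1)) f σ *
        D.lr (cf D.x 2) g σ) B ^ 2 := by
    simp only [← h2]
    rw [← q3, ← q3_mul]
    rfl
  rw [h3]
  have h4 : D.x ^ 2 ≤ 1 := pow_le_one₀ h.x0 h.x1
  refine (mul_le_mul h4 h1 (q3_nonneg _) zero_le_one).trans (le_of_eq ?_)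
  unfold r3
  ring

lemma Ok.q_v2 (h : D.Ok h0 M0) (B : ι → ℝ) : q2 (fun e f => D.v2 e f B) ≤ 10 * D.r2 B := by
  have h1 := q2_sub (fun e f => D.b2 e f B) (fun e f => D.v1 e B * D.v1 f B)
  have h2 := h.q_b2 B
  have h3 := h.q_v1 B
  rw [q2_tt] at h1
  have h4 : q1 (fun e => D.v1 e B) * q1 (fun e => D.v1 e B) ≤ D.r2 B := by
    rw [← r1_sq]
    exact mul_le_mul h3 h3 (q1_nonneg _) (D.r1_nonneg B)
  unfold v2
  linarith

lemma Ok.q_v3 (h : D.Ok h0 M0) (B : ι → ℝ) : q3 (fun e f g => D.v3 e f g B) ≤ 352 * D.r3 B := by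
  have h1 := q3_sub (fun e f g => D.b3 e f g B - D.b2 e f B * D.v1 g B)
    (fun e f g => D.v2 e g B * D.v1 f B + D.v1 e B * D.v2 f g B)
  have h2 := q3_sub (fun e f g => D.b3 e f g B) (fun e f g => D.b2 e f B * D.v1 g B)
  have h3 := q3_add (fun e f g => D.v2 e g B * D.v1 f B) (fun e f g => D.v1 e B * D.v2 f g B)
  rw [q3_1] at h2
  rw [q3_2, q3_4] at h3
  have e1 := h.q_v1 B
  have e2 := h.q_v2 B
  have e3 := h.q_b2 B
  have e4 := h.q_b3 B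
  have e5 := h.r12 B
  have hr2 := D.r2_nonneg B
  have p1 : q2 (fun e f => D.b2 e f B) * q1 (fun e => D.v1 e B) ≤ 4 * D.r3 B := by
    refine (mul_le_mul e3 e1 (q1_nonneg _) (by positivity)).trans ?_
    linarith
  have p2 : q2 (fun e f => D.v2 e f B) * q1 (fun e => D.v1 e B) ≤ 10 * D.r3 B := by
    refine (mul_le_mul e2 e1 (q1_nonneg _) (by positivity)).trans ?_
    linarith
  have p3 : q1 (fun e => D.v1 e B) * q2 (fun e f => D.v2 e f B) ≤ 10 * D.r3 B := by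
    rw [mul_comm]
    exact p2
  unfold v3
  linarith

variable {θ : X → ℝ} {C0 : ℝ}

lemma Ok.N_sq (h : D.Ok h0 M0) (hθ : Bm θ) (hC : ∀ s, |θ s| ≤ C0) (B : ι → ℝ) :
    D.N θ B ^ 2 ≤ C0 ^ 2 := by
  have h1 := h.abs_nb (bm_th hθ) (C := C0) (fun σ => hC _) B
  rw [← sq_abs]
  exact pow_le_pow_left₀ (abs_nonneg _) h1 2

lemma Ok.q_A1 (h : D.Ok h0 M0) (hθ : Bm θ) (hC : ∀ s, |θ s| ≤ C0) (B : ι → ℝ) :
    q1 (fun e => D.A1 θ e B) ≤ 4 * (C0 ^ 2 * D.r1 B) := by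
  have h1 := h.nb1_le (r := 2) (Φ := fun σ => th θ (ini σ)) ((bm_th hθ).comp ini_meas) (C0 := C0)
    (fun _ => hC _) (a := cf D.x 1) (A := 2) (by simpa using h.cf_le 0) B
  have h2 : ∀ e, D.A1 θ e B = D.nb 2 (fun σ => th θ (ini σ) * D.lr (cf D.x 1) e σ) B := by
    intro e
    unfold A1
    congr 1
    funext σ
    rw [dd_eq]
  unfold q1 r1
  simp only [h2]
  linarith

lemma Ok.q_A2 (h : D.Ok h0 M0) (hθ : Bm θ) (hC : ∀ s, |θ s| ≤ C0) (B : ι → ℝ) :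
    q2 (fun e f => D.A2 θ e f B) ≤ 64 * (C0 ^ 2 * D.r2 B) := by
  have h1 := h.nb2_le (r := 3) (Φ := fun σ => th θ (ini (ini σ)))
    (((bm_th hθ).comp ini_meas).comp ini_meas) (C0 := C0)
    (fun _ => hC _) (a := up (cf D.x 1)) (b := cf D.x 2) (A := 2) (A' := 4)
    (by rw [sum_up]; simpa using h.cf_le 0)
    (by have := h.cf_le 1; norm_num at this ⊢; linarith) B
  have h2 : ∀ e f, D.A2 θ e f B = D.nb 3 (fun σ => th θ (ini (ini σ)) *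
      D.lr (up (cf D.x 1)) e σ * D.lr (cf D.x 2) f σ) B := by
    intro e f
    unfold A2
    congr 1
    funext σ
    rw [dd_eq, dd_eq, lr_up]
  unfold q2
  simp only [h2]
  linarith

lemma Ok.q_A3 (h : D.Ok h0 M0) (hθ : Bm θ) (hC : ∀ s, |θ s| ≤ C0) (B : ι → ℝ) :
    q3 (fun e f g => D.A3 θ e f g B) ≤ 2304 * (C0 ^ 2 * D.r3 B) := by
  have h1 := h.nb3_le (r := 4) (Φ := fun σ => th θ (ini (ini (ini σ))))
    ((((bm_th hθ).comp ini_meas).comp ini_meas).comp ini_meas) (C0 := C0)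
    (fun _ => hC _) (a := up (up (cf D.x 1))) (b := up (cf D.x 2)) (c := cf D.x 3)
    (A := 2) (A' := 4) (A'' := 6)
    (by rw [sum_up, sum_up]; simpa using h.cf_le 0)
    (by rw [sum_up]; have := h.cf_le 1; norm_num at this ⊢; linarith)
    (by have := h.cf_le 2; norm_num at this ⊢; linarith) B
  have h2 : ∀ e f g, D.A3 θ e f g B = D.nb 4 (fun σ => th θ (ini (ini (ini σ))) *
      D.lr (up (up (cf D.x 1))) e σ * D.lr (up (cf D.x 2)) f σ * D.lr (cf D.x 3) g σ) B := by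
    intro e f g
    unfold A3
    congr 1
    funext σ
    rw [dd_eq, dd_eq, dd_eq, lr_up, lr_up, lr_up]
  unfold q3 r3
  simp only [h2]
  linarith

lemma Ok.q_n1 (h : D.Ok h0 M0) (hθ : Bm θ) (hC : ∀ s, |θ s| ≤ C0) (B : ι → ℝ) :
    q1 (fun e => D.n1 θ e B) ≤ 10 * (C0 ^ 2 * D.r1 B) := by
  have h1 := q1_sub (fun e => D.A1 θ e B) (fun e => D.N θ B * D.v1 e B)
  have h2 := h.q_A1 hθ hC B
  rw [q1_mul] at h1
  have h3 : D.N θ B ^ 2 * q1 (fun e => D.v1 e B) ≤ C0 ^ 2 * D.r1 B :=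
    mul_le_mul (h.N_sq hθ hC B) (h.q_v1 B) (q1_nonneg _) (sq_nonneg _)
  unfold n1
  linarith

lemma Ok.q_n2 (h : D.Ok h0 M0) (hθ : Bm θ) (hC : ∀ s, |θ s| ≤ C0) (B : ι → ℝ) :
    q2 (fun e f => D.n2 θ e f B) ≤ 352 * (C0 ^ 2 * D.r2 B) := by
  have hr1 := D.r1_nonneg B
  have hrr := D.r1_sq B
  have h1 := q2_sub (fun e f => D.A2 θ e f B - D.A1 θ e B * D.v1 f B)
    (fun e f => D.n1 θ f B * D.v1 e B + D.N θ B * D.v2 e f B)
  have h2 := q2_sub (fun e f => D.A2 θ e f B) (fun e f => D.A1 θ e B * D.v1 f B)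
  have h3 := q2_add (fun e f => D.n1 θ f B * D.v1 e B) (fun e f => D.N θ B * D.v2 e f B)
  rw [q2_tt] at h2
  rw [q2_tt' (fun f => D.n1 θ f B) (fun e => D.v1 e B), q2_mul] at h3
  have e1 := h.q_v1 B
  have p0 := h.q_A2 hθ hC B
  have p1 : q1 (fun e => D.A1 θ e B) * q1 (fun e => D.v1 e B) ≤ 4 * (C0 ^ 2 * D.r2 B) := by
    refine (mul_le_mul (h.q_A1 hθ hC B) e1 (q1_nonneg _) (by positivity)).trans (le_of_eq ?_)
    rw [← hrr]
    ring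
  have p2 : q1 (fun e => D.n1 θ e B) * q1 (fun e => D.v1 e B) ≤ 10 * (C0 ^ 2 * D.r2 B) := by
    refine (mul_le_mul (h.q_n1 hθ hC B) e1 (q1_nonneg _) (by positivity)).trans (le_of_eq ?_)
    rw [← hrr]
    ring
  have p3 : D.N θ B ^ 2 * q2 (fun e f => D.v2 e f B) ≤ 10 * (C0 ^ 2 * D.r2 B) := by
    refine (mul_le_mul (h.N_sq hθ hC B) (h.q_v2 B) (q2_nonneg _) (sq_nonneg _)).trans
      (le_of_eq ?_)
    ring
  unfold n2
  linarith

lemma Ok.q_n3 (h : D.Ok h0 M0) (hθ : Bm θ) (hC : ∀ s, |θ s| ≤ C0) (B : ι → ℝ) :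
    q3 (fun e f g => D.n3 θ e f g B) ≤ 27584 * (C0 ^ 2 * D.r3 B) := by
  have hr1 := D.r1_nonneg B
  have hr2 := D.r2_nonneg B
  have hr3 := D.r3_nonneg B
  have hrr := D.r1_sq B
  have h12 := mul_le_mul_of_nonneg_left (h.r12 B) (sq_nonneg C0)
  have e1 := h.q_v1 B
  have e2 := h.q_v2 B
  have a1 := h.q_A1 hθ hC B
  have a2 := h.q_A2 hθ hC B
  have a3 := h.q_A3 hθ hC B
  have b1 := h.q_n1 hθ hC B
  have b2 := h.q_n2 hθ hC B
  -- the four parts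
  have t1 := q3_sub (fun e f g => D.A3 θ e f g B) (fun e f g => D.A2 θ e f B * D.v1 g B)
  rw [q3_1] at t1
  have t2 := q3_add (fun e f g => (D.A2 θ e g B - D.A1 θ e B * D.v1 g B) * D.v1 f B)
    (fun e f g => D.A1 θ e B * D.v2 f g B)
  rw [q3_2 (fun e g => D.A2 θ e g B - D.A1 θ e B * D.v1 g B) (fun f => D.v1 f B),
    q3_4 (fun e => D.A1 θ e B) (fun f g => D.v2 f g B)] at t2
  have t2' := q2_sub (fun e f => D.A2 θ e f B) (fun e f => D.A1 θ e B * D.v1 f B)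
  rw [q2_tt] at t2'
  have t3 := q3_add (fun e f g => D.n2 θ f g B * D.v1 e B) (fun e f g => D.n1 θ f B * D.v2 e g B)
  rw [q3_3 (fun f g => D.n2 θ f g B) (fun e => D.v1 e B),
    q3_5 (fun f => D.n1 θ f B) (fun e g => D.v2 e g B)] at t3
  have t4 := q3_add (fun e f g => D.n1 θ g B * D.v2 e f B) (fun e f g => D.N θ B * D.v3 e f g B)
  rw [q3_6 (fun g => D.n1 θ g B) (fun e f => D.v2 e f B), q3_mul] at t4
  have s1 := q3_sub (fun e f g => D.A3 θ e f g B - D.A2 θ e f B * D.v1 g B)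
    (fun e f g => (D.A2 θ e g B - D.A1 θ e B * D.v1 g B) * D.v1 f B + D.A1 θ e B * D.v2 f g B)
  have s2 := q3_add (fun e f g => D.n2 θ f g B * D.v1 e B + D.n1 θ f B * D.v2 e g B)
    (fun e f g => D.n1 θ g B * D.v2 e f B + D.N θ B * D.v3 e f g B)
  have s3 := q3_sub (fun e f g => D.A3 θ e f g B - D.A2 θ e f B * D.v1 g B -
      ((D.A2 θ e g B - D.A1 θ e B * D.v1 g B) * D.v1 f B + D.A1 θ e B * D.v2 f g B))
    (fun e f g => D.n2 θ f g B * D.v1 e B + D.n1 θ f B * D.v2 e g B +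
      (D.n1 θ g B * D.v2 e f B + D.N θ B * D.v3 e f g B))
  -- the products
  have m1 : q2 (fun e f => D.A2 θ e f B) * q1 (fun e => D.v1 e B) ≤ 64 * (C0 ^ 2 * D.r3 B) := by
    refine (mul_le_mul a2 e1 (q1_nonneg _) (by positivity)).trans ?_
    nlinarith
  have m2 : q1 (fun e => D.A1 θ e B) * q1 (fun e => D.v1 e B) ≤ 4 * (C0 ^ 2 * D.r2 B) := by
    refine (mul_le_mul a1 e1 (q1_nonneg _) (by positivity)).trans (le_of_eq ?_)
    rw [← hrr]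
    ring
  have m3 : q2 (fun e g => D.A2 θ e g B - D.A1 θ e B * D.v1 g B) * q1 (fun f => D.v1 f B) ≤
      136 * (C0 ^ 2 * D.r3 B) := by
    have m4 : q2 (fun e g => D.A2 θ e g B - D.A1 θ e B * D.v1 g B) ≤
        136 * (C0 ^ 2 * D.r2 B) := by linarith
    refine (mul_le_mul m4 e1 (q1_nonneg _) (by positivity)).trans ?_
    nlinarith
  have m5 : q1 (fun e => D.A1 θ e B) * q2 (fun f g => D.v2 f g B) ≤ 40 * (C0 ^ 2 * D.r3 B) := by
    refine (mul_le_mul a1 e2 (q2_nonneg _) (by positivity)).trans ?_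
    nlinarith
  have m6 : q2 (fun f g => D.n2 θ f g B) * q1 (fun e => D.v1 e B) ≤ 352 * (C0 ^ 2 * D.r3 B) := by
    refine (mul_le_mul b2 e1 (q1_nonneg _) (by positivity)).trans ?_
    nlinarith
  have m7 : q1 (fun f => D.n1 θ f B) * q2 (fun e g => D.v2 e g B) ≤
      100 * (C0 ^ 2 * D.r3 B) := by
    refine (mul_le_mul b1 e2 (q2_nonneg _) (by positivity)).trans ?_
    nlinarith
  have m8 : D.N θ B ^ 2 * q3 (fun e f g => D.v3 e f g B) ≤ 352 * (C0 ^ 2 * D.r3 B) := by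
    refine (mul_le_mul (h.N_sq hθ hC B) (h.q_v3 B) (q3_nonneg _) (sq_nonneg _)).trans
      (le_of_eq ?_)
    ring
  unfold n3
  linarith

/-! ### parity -/

/-- A symmetry which changes the sign of the energies of the row. -/
structure Flip (D : Dt Ω X ι) (g : Ω → Ω) (τ : X → X) : Prop where
  mg : MeasurePreserving g D.Q D.Q
  mt : MeasurePreserving τ D.m D.m
  H : ∀ ω s, D.H (g ω) (τ s) = D.H ω s
  S : ∀ e s, D.S e (τ s) = -D.S e s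

variable {g : Ω → Ω} {τ : X → X}

lemma Flip.en (hf : D.Flip g τ) (B : ι → ℝ) (ω : Ω) (s : X) :
    D.en (-B) (g ω) (τ s) = D.en B ω s := by
  unfold Dt.en
  rw [hf.H]
  congr 1
  refine Finset.sum_congr rfl fun e _ => ?_
  rw [hf.S, Pi.neg_apply]
  ring

lemma Ok.flip_Z (h : D.Ok h0 M0) (hf : D.Flip g τ) (B : ι → ℝ) (ω : Ω) :
    D.Z (-B) (g ω) = D.Z B ω := by
  unfold Z
  have h1 : ∫ s, Real.exp (D.en (-B) (g ω) s) ∂(D.m.map τ) =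
      ∫ s, Real.exp (D.en (-B) (g ω) (τ s)) ∂D.m :=
    integral_map hf.mt.measurable.aemeasurable (h.en_meas' _ _).exp.aestronglyMeasurable
  rw [hf.mt.map_eq] at h1
  rw [h1]
  simp only [hf.en]

lemma Ok.flip_wt (h : D.Ok h0 M0) (hf : D.Flip g τ) (r : ℕ) (B : ι → ℝ) (ω : Ω)
    (σ : Fin r → X) : D.wt r (-B) (g ω) (fun i => τ (σ i)) = D.wt r B ω σ := by
  unfold wt
  rw [h.flip_Z hf]
  simp only [hf.en]

lemma Ok.flip_br (h : D.Ok h0 M0) (hf : D.Flip g τ) {r : ℕ} {Φ : (Fin r → X) → ℝ}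
    (hΦ : Bm Φ) (B : ι → ℝ) : D.br r Φ (-B) = D.br r (fun σ => Φ fun i => τ (σ i)) B := by
  have hp := h.pQ
  have hfm := h.fm
  have hτ : Measurable fun (σ : Fin r → X) i => τ (σ i) :=
    measurable_pi_lambda _ fun i => hf.mt.measurable.comp (measurable_pi_apply i)
  rw [h.br_eq hΦ, h.br_eq (hΦ.comp hτ)]
  have h1 : MeasurePreserving (Prod.map g fun (σ : Fin r → X) i => τ (σ i)) (D.QX r) (D.QX r) :=
    hf.mg.prod (measurePreserving_pi (fun _ : Fin r => D.m) (fun _ => D.m) fun _ => hf.mt)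
  have h2 : ∫ p, D.wt r (-B) p.1 p.2 * Φ p.2
      ∂((D.QX r).map (Prod.map g fun (σ : Fin r → X) i => τ (σ i))) =
      ∫ p, D.wt r (-B) (g p.1) (fun i => τ (p.2 i)) * Φ (fun i => τ (p.2 i)) ∂(D.QX r) := by
    rw [integral_map h1.measurable.aemeasurable]
    · rfl
    · exact ((h.wtm r (-B)).mul (hΦ.1.comp measurable_snd)).aestronglyMeasurable
  rw [h1.map_eq] at h2
  rw [h2]
  simp only [h.flip_wt hf]

lemma Ok.flip_M (h : D.Ok h0 M0) (hf : D.Flip g τ) (B : ι → ℝ) : D.M (-B) = D.M B := by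
  have h1 := h.flip_br hf (r := 0) (Φ := fun _ => (1 : ℝ)) (Bm.const 1) B
  rwa [h.br_const, h.br_const, one_mul, one_mul] at h1

lemma Ok.flip_N (h : D.Ok h0 M0) (hf : D.Flip g τ) (hθ : Bm θ) (ho : ∀ s, θ (τ s) = -θ s)
    (B : ι → ℝ) : D.N θ (-B) = -D.N θ B := by
  have h1 := h.flip_br hf (bm_th hθ) B
  have h2 : (fun σ : Fin 1 → X => th θ fun i => τ (σ i)) = fun σ => (-1) * th θ σ := by
    funext σ
    unfold th
    rw [ho]
    ring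
  unfold N
  rw [h2] at h1
  have h3 : D.nb 1 (th θ) (-B) = D.nb 1 (fun σ => (-1) * th θ σ) B := by
    unfold nb
    rw [h1, h.flip_M hf]
  rw [h3, nb_cmul]
  ring

/-! ### the theorem -/

/-- the potential of the tilt -/
noncomputable def V (D : Dt Ω X ι) (B : ι → ℝ) : ℝ := Real.log (D.M B)

lemma Ok.exp_V (h : D.Ok h0 M0) (B : ι → ℝ) : Real.exp (D.V B) = D.M B := Real.exp_log (h.M_pos B)

lemma Ok.v1_sq (h : D.Ok h0 M0) {L : ℝ} (hL : ∀ s, D.x ^ 2 * ∑ e, D.S e s ^ 2 ≤ L ^ 2)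
    (B : ι → ℝ) : ∑ e, D.v1 e B ^ 2 ≤ L ^ 2 := by
  have i2 := h.pPr 1 B
  have h1 : ∀ e, D.v1 e B ^ 2 ≤ ∫ p, D.x ^ 2 * D.S e (p.2 0) ^ 2 ∂(D.Pr 1 B) := by
    intro e
    have h2 := cs (Q := D.Pr 1 B) (f := fun p => D.S e (p.2 0)) (g := fun _ => 1)
      ((h.bm_sg e).comp measurable_snd) (Bd.const 1)
    have h3 : ∫ _ : Ω × (Fin 1 → X), (1 : ℝ) ^ 2 ∂(D.Pr 1 B) = 1 := by simp
    rw [h3, mul_one] at h2
    simp only [mul_one] at h2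
    have h4 : D.v1 e B = D.x * ∫ p, D.S e (p.2 0) ∂(D.Pr 1 B) := by
      have := h.int_Pr (h.bm_sg e) B
      unfold sg at this
      rw [this]
      rfl
    rw [h4, mul_pow, integral_const_mul]
    exact mul_le_mul_of_nonneg_left h2 (sq_nonneg _)
  refine (Finset.sum_le_sum fun e _ => h1 e).trans ?_
  rw [← integral_finsetSum _ fun e _ => Bd.integrable (f := fun p : Ω × (Fin 1 → X) =>
    D.x ^ 2 * D.S e (p.2 0) ^ 2) ((Bd.const _).mul ((Bd.comp (h.bm_sg e) measurable_snd).pow 2)) _]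
  have h5 : ∫ p : Ω × (Fin 1 → X), ∑ e, D.x ^ 2 * D.S e (p.2 0) ^ 2 ∂(D.Pr 1 B) ≤
      ∫ _, L ^ 2 ∂(D.Pr 1 B) := by
    refine integral_mono_of_nonneg (Eventually.of_forall fun p => Finset.sum_nonneg fun e _ =>
      by positivity) (integrable_const _) (Eventually.of_forall fun p => ?_)
    simp only
    rw [← Finset.mul_sum]
    exact hL _
  simpa using h5

lemma Ok.tilt (h : D.Ok h0 M0) {L : ℝ} (hL : ∀ s, D.x ^ 2 * ∑ e, D.S e s ^ 2 ≤ L ^ 2)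
    (hL0 : 0 < L) (hL1 : L ≤ 1 / 2) : Tilt D.V D.v1 L where
  pd := fun e => h.pd_log e
  eg := fun e => h.eg_v1 e
  ex := by
    obtain ⟨C, a, hC, ha, hb⟩ := h.M_le
    have h1 : EG D.M := ⟨h.M_meas, C, a, hC, ha, fun B => by
      rw [abs_of_pos (h.M_pos B)]
      exact hb B⟩
    refine ((EG.const 1).add h1).mono ?_ fun B => ?_
    · exact ((h.M_meas.log).div_const 2).exp
    · rw [abs_of_pos (Real.exp_pos _), abs_of_pos (add_pos one_pos (h.M_pos B))]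
      have h2 := h.exp_V B
      rcases le_total (D.V B) 0 with h3 | h3
      · have : Real.exp (D.V B / 2) ≤ 1 := Real.exp_le_one_iff.2 (by linarith)
        linarith [h.M_pos B]
      · have : Real.exp (D.V B / 2) ≤ Real.exp (D.V B) := Real.exp_le_exp.2 (by linarith)
        linarith
  bd := h.v1_sq hL
  L0 := hL0
  L1 := hL1

lemma Ok.odd3 (h : D.Ok h0 M0) (hf : D.Flip g τ) (hθ : Bm θ) (ho : ∀ s, θ (τ s) = -θ s) :
    Odd3 (D.N θ) (D.n1 θ) (D.n2 θ) (D.n3 θ) where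
  odd := h.flip_N hf hθ ho
  pd0 := h.pd_N hθ
  pd1 := h.pd_n1 hθ
  pd2 := h.pd_n2 hθ
  eg0 := h.eg_N hθ
  eg1 := h.eg_n1 hθ
  eg2 := h.eg_n2 hθ
  eg3 := h.eg_n3 hθ

lemma Ok.eg_r2 (h : D.Ok h0 M0) : EG D.r2 :=
  EG.sum _ fun e _ => (h.eg_nb (r := 1) (Φ := fun σ => D.S e.1 (σ 0) * D.S e.2 (σ 0))
    ((h.bm_sg e.1).mul (h.bm_sg e.2))).pow 2

lemma Ok.eg_r4 (h : D.Ok h0 M0) : EG D.r4 :=
  EG.sum _ fun e _ => (h.eg_nb (r := 1) (Φ := fun σ => (D.S e.1.1 (σ 0) * D.S e.1.2 (σ 0)) *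
    (D.S e.2.1 (σ 0) * D.S e.2.2 (σ 0))) (((h.bm_sg e.1.1).mul (h.bm_sg e.1.2)).mul
      ((h.bm_sg e.2.1).mul (h.bm_sg e.2.2)))).pow 2

lemma eg_sqrt {f : (ι → ℝ) → ℝ} (hf : EG f) (h0 : ∀ z, 0 ≤ f z) : EG fun z => √(f z) := by
  refine ((EG.const 1).add hf).mono hf.meas.sqrt fun z => ?_
  rw [abs_of_nonneg (Real.sqrt_nonneg _), abs_of_nonneg (by have := h0 z; linarith)]
  rw [Real.sqrt_le_left (by have := h0 z; linarith)]
  nlinarith [h0 z]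

lemma Ok.eg_r1 (h : D.Ok h0 M0) : EG D.r1 := eg_sqrt h.eg_r2 D.r2_nonneg

lemma Ok.eg_r3 (h : D.Ok h0 M0) : EG D.r3 :=
  eg_sqrt (h.eg_r2.mul h.eg_r4) fun z => mul_nonneg (D.r2_nonneg z) (D.r4_nonneg z)

/-- **The third order upper bound** (with the weight `M`, `A a = tm V (z a * N)`). -/
theorem Ok.c3 (h : D.Ok h0 M0) (hf : D.Flip g τ) (hθ : Bm θ) (hC : ∀ s, |θ s| ≤ C0)
    (ho : ∀ s, θ (τ s) = -θ s) {L : ℝ} (hL : ∀ s, D.x ^ 2 * ∑ e, D.S e s ^ 2 ≤ L ^ 2)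
    (hL0 : 0 < L) (hL1 : L ≤ 1 / 2) (u : ι → ℝ) :
    ∫ z, D.M z * (D.N θ z - ∑ a, u a * z a) ^ 2 ∂(gI ι) ≤
      6 * ((∑ a, (tm D.V (fun z => z a * D.N θ z) - u a) ^ 2) * ∫ z, D.M z ∂(gI ι)) +
        C0 ^ 2 * 750168 * ∫ z, D.M z * D.r3 z ∂(gI ι) := by
  have key := c3_up (h.tilt hL hL0 hL1) (fun z => by unfold V; rw [h.flip_M hf])
    (h.odd3 hf hθ ho) (fun a b => h.pd_v1 a b) (fun a b => h.eg_v2 a b) (r1 := D.r1)
    (r2 := D.r2) (r3 := D.r3) h.eg_r1 h.eg_r2 h.eg_r3 D.r1_nonneg D.r2_nonneg D.r3_nonneg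
    (fun z => by
      have h1 := h.r12 z
      have h2 := D.r1_sq z
      calc D.r1 z ^ 3 = D.r1 z * D.r1 z * D.r1 z := by ring
        _ ≤ D.r3 z := by rw [h2]; exact h1)
    (fun z => by
      have h1 := h.r2_sq_le z
      have h2 := D.r2_nonneg z
      have h3 : D.r3 z ^ 2 = D.r2 z * D.r4 z :=
        Real.sq_sqrt (mul_nonneg h2 (D.r4_nonneg z))
      rw [h3]
      calc D.r2 z ^ 3 = D.r2 z * D.r2 z ^ 2 := by ring
        _ ≤ D.r2 z * D.r4 z := mul_le_mul_of_nonneg_left h1 h2)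
    (c1 := 10 * C0 ^ 2) (c2 := 10) (c3 := 27584 * C0 ^ 2) (by positivity) (by norm_num)
    (fun z => by have := h.q_n1 hθ hC z; unfold q1 at this; linarith)
    (fun z => by have := h.q_v2 z; unfold q2 at this; linarith)
    (fun z => by have := h.q_n3 hθ hC z; unfold q3 at this; linarith) u
  simp only [h.exp_V] at key
  refine key.trans (le_of_eq ?_)
  ring

end Dt

end Vale.Agent.P146.H919
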